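import Mathlib

/-!
# P300, chapter E, [INTP]: interpolation of 1-jets by a polynomial on `ℂ²`
-/

open Set Filter Topology

namespace Vale.Agent.P300.H113

theorem exists_bump (S : Finset (Fin 2 → ℂ)) (x₀ : Fin 2 → ℂ) :
    ∃ e : (Fin 2 → ℂ) → ℂ, Differentiable ℂ e ∧ e x₀ = 1 ∧
      ∀ y ∈ S, y ≠ x₀ → e y = 0 ∧ fderiv ℂ e y = 0 := by
  classical
  induction S using Finset.induction_on with
  | empty => exact ⟨fun _ => 1, differentiable_const _, rfl, by simp⟩
  | insert y S _ ih =>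
    obtain ⟨e, he, he0, heS⟩ := ih
    by_cases hy : y = x₀
    · refine ⟨e, he, he0, fun z hz hz0 => ?_⟩
      rcases Finset.mem_insert.1 hz with h | h
      · exact absurd (h.trans hy) hz0
      · exact heS z h hz0
    obtain ⟨j, hj⟩ : ∃ j, y j ≠ x₀ j := by
      by_contra h
      push Not at h
      exact hy (funext h)
    have hd : x₀ j - y j ≠ 0 := sub_ne_zero.2 (Ne.symm hj)
    set q : (Fin 2 → ℂ) → ℂ := fun x => (x j - y j) * (x₀ j - y j)⁻¹ with hq
    have hqd : Differentiable ℂ q := by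
      intro x
      have h1 : DifferentiableAt ℂ (fun x : Fin 2 → ℂ => x j) x := differentiableAt_apply j x
      exact (h1.sub (differentiableAt_const _)).mul (differentiableAt_const _)
    have hqy : q y = 0 := by simp [hq]
    have hq2 : Differentiable ℂ (fun x => q x ^ 2) := fun x => (hqd x).pow 2
    refine ⟨fun x => e x * q x ^ 2, fun x => (he x).mul (hq2 x), ?_, fun z hz hz0 => ?_⟩
    · simp [he0, hq, mul_inv_cancel₀ hd]
    · have hfd : fderiv ℂ (fun x => e x * q x ^ 2) z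
          = e z • fderiv ℂ (fun x => q x ^ 2) z + q z ^ 2 • fderiv ℂ e z :=
        fderiv_fun_mul (he z) (hq2 z)
      by_cases hzy : z = y
      · subst hzy
        refine ⟨by simp [hqy], ?_⟩
        have h2 : fderiv ℂ (fun x => q x ^ 2) z = 0 := by
          have := ((hqd z).hasFDerivAt.pow 2).fderiv
          rw [this, hqy]
          ext v
          simp
        rw [hfd, h2, hqy]
        ext v
        simp
      · have hzS : z ∈ S := (Finset.mem_insert.1 hz).resolve_left hzy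
        obtain ⟨h1, h2⟩ := heS z hzS hz0
        refine ⟨by simp [h1], ?_⟩
        rw [hfd, h1, h2]
        ext v
        simp

/-- **[INTP]** -/
theorem exists_intp (S : Finset (Fin 2 → ℂ)) (x₀ : Fin 2 → ℂ) (a : ℂ)
    (L : (Fin 2 → ℂ) →L[ℂ] ℂ) :
    ∃ g : (Fin 2 → ℂ) → ℂ, Differentiable ℂ g ∧ g x₀ = a ∧ fderiv ℂ g x₀ = L ∧
      ∀ y ∈ S, y ≠ x₀ → g y = 0 ∧ fderiv ℂ g y = 0 := by
  obtain ⟨e, he, he0, heS⟩ := exists_bump S x₀
  set M : (Fin 2 → ℂ) →L[ℂ] ℂ := L - a • fderiv ℂ e x₀ with hM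
  have hl : ∀ x, HasFDerivAt (fun x => a + M (x - x₀)) M x := by
    intro x
    have h1 : HasFDerivAt (fun x : Fin 2 → ℂ => x - x₀)
        (ContinuousLinearMap.id ℂ (Fin 2 → ℂ)) x := (hasFDerivAt_id x).sub_const x₀
    have h2 := (M.hasFDerivAt (x := x - x₀)).comp x h1
    exact h2.const_add a
  have hfd : ∀ z, fderiv ℂ (fun x => e x * (a + M (x - x₀))) z
      = e z • M + (a + M (z - x₀)) • fderiv ℂ e z := by
    intro z
    rw [fderiv_fun_mul (he z) (hl z).differentiableAt, (hl z).fderiv]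
  refine ⟨fun x => e x * (a + M (x - x₀)), fun x => (he x).mul (hl x).differentiableAt, ?_, ?_, ?_⟩
  · simp [he0]
  · rw [hfd, he0, hM]
    ext v
    simp
  · intro y hy hy0
    obtain ⟨h1, h2⟩ := heS y hy hy0
    refine ⟨by simp [h1], ?_⟩
    rw [hfd, h1, h2]
    ext v
    simp

end Vale.Agent.P300.H113

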