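import Vale.Agent.P300.H435.L2.Basic

/-!
P300, block PROJ: Levi forms of real functions on `ℂⁿ` (port of `P282/Bd3/B1` [exhaustion
functions] and `P271/H884/Psh` to the definitions of `Vale.Agent.P300.L2`).
-/

set_option linter.all false

open MeasureTheory Filter Topology
open scoped ENNReal NNReal ComplexConjugate

namespace Vale.Agent.P300.H113

open Vale.Agent.P300.L2

/-- Polynomials in `n` variables. -/
abbrev Pol (n : ℕ) : Type := MvPolynomial (Fin n) ℂ

variable {n : ℕ}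

theorem evHol_hasFDeriv (f : Pol n) (z : Fin n → ℂ) :
    HasFDerivAt (fun z : Fin n → ℂ => MvPolynomial.eval z f)
      (∑ i, MvPolynomial.eval z (MvPolynomial.pderiv i f) •
        (ContinuousLinearMap.proj i : (Fin n → ℂ) →L[ℂ] ℂ)) z := by
  induction f using MvPolynomial.induction_on with
  | C a =>
    have h := hasFDerivAt_const (𝕜 := ℂ) a z
    refine (h.congr_fderiv ?_).congr_of_eventuallyEq ?_
    · ext v
      simp
    · exact Eventually.of_forall fun y => by simp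
  | add p q hp hq =>
    have h := hp.add hq
    refine (h.congr_fderiv ?_).congr_of_eventuallyEq ?_
    · ext v
      simp [Finset.sum_add_distrib, add_mul]
    · exact Eventually.of_forall fun y => by simp
  | mul_X p i hp =>
    have h1 : HasFDerivAt (fun z : Fin n → ℂ => z i) (ContinuousLinearMap.proj i : (Fin n → ℂ) →L[ℂ] ℂ) z :=
      (ContinuousLinearMap.proj (R := ℂ) (φ := fun _ : Fin n => ℂ) i).hasFDerivAt
    have h := hp.mul h1
    refine (h.congr_fderiv ?_).congr_of_eventuallyEq ?_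
    · ext v
      have h2 : ∀ k, MvPolynomial.eval z (MvPolynomial.pderiv k (p * MvPolynomial.X i)) * v k =
          (if i = k then MvPolynomial.eval z p * v k else 0) +
            z i * (MvPolynomial.eval z (MvPolynomial.pderiv k p) * v k) := by
        intro k
        rw [Derivation.leibniz, MvPolynomial.pderiv_X]
        by_cases hk : i = k
        · subst hk
          simp
          ring
        · simp [hk]
          ring
      simp only [ContinuousLinearMap.sum_apply, ContinuousLinearMap.add_apply,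
        ContinuousLinearMap.smul_apply, ContinuousLinearMap.proj_apply, smul_eq_mul, h2,
        Finset.sum_add_distrib, Finset.sum_ite_eq, Finset.mem_univ, if_true, Finset.mul_sum]
    · exact Eventually.of_forall fun y => by simp

theorem evHol_diff (f : Pol n) : Differentiable ℂ (fun z : Fin n → ℂ => MvPolynomial.eval z f) :=
  fun z => (evHol_hasFDeriv f z).differentiableAt

theorem dz_eval (f : Pol n) (j : Fin n) (z : Fin n → ℂ) :
    dz j (fun z => MvPolynomial.eval z f) z = MvPolynomial.eval z (MvPolynomial.pderiv j f) := by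
  rw [dz_holo (evHol_diff f z), (evHol_hasFDeriv f z).fderiv]
  simp [Pi.single_apply]

namespace ExhAux

/-- Polynomial growth of polynomials. -/
lemma pol_growth (f : Pol n) : ∃ (C : ℝ) (k : ℕ), 0 ≤ C ∧
    ∀ z : Fin n → ℂ, ‖MvPolynomial.eval z f‖ ≤ C * (1 + ‖z‖) ^ k := by
  induction f using MvPolynomial.induction_on with
  | C a => exact ⟨‖a‖, 0, norm_nonneg _, fun z => by simp⟩
  | add p q hp hq =>
    obtain ⟨C₁, k₁, h₁, e₁⟩ := hp
    obtain ⟨C₂, k₂, h₂, e₂⟩ := hq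
    refine ⟨C₁ + C₂, max k₁ k₂, add_nonneg h₁ h₂, fun z => ?_⟩
    have h1 : (1 : ℝ) ≤ 1 + ‖z‖ := by linarith [norm_nonneg z]
    rw [map_add, add_mul]
    refine (norm_add_le _ _).trans (add_le_add ((e₁ z).trans ?_) ((e₂ z).trans ?_))
    · exact mul_le_mul_of_nonneg_left (pow_le_pow_right₀ h1 (le_max_left _ _)) h₁
    · exact mul_le_mul_of_nonneg_left (pow_le_pow_right₀ h1 (le_max_right _ _)) h₂
  | mul_X p i hp =>
    obtain ⟨C₁, k₁, h₁, e₁⟩ := hp
    refine ⟨C₁, k₁ + 1, h₁, fun z => ?_⟩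
    rw [map_mul, MvPolynomial.eval_X, norm_mul, pow_succ, ← mul_assoc]
    have h2 : ‖z i‖ ≤ 1 + ‖z‖ := by linarith [norm_le_pi_norm z i]
    exact mul_le_mul (e₁ z) h2 (norm_nonneg _) (by positivity)

section levi

variable {V : Set (Fin n → ℂ)} {f : (Fin n → ℂ) → ℂ} {z : Fin n → ℂ}

lemma sq_eq (f : (Fin n → ℂ) → ℂ) :
    (fun z => ((‖f z‖ ^ 2 : ℝ) : ℂ)) = fun z => f z * conj (f z) := by
  funext z
  rw [Complex.mul_conj, Complex.normSq_eq_norm_sq]

lemma diffAt (hV : IsOpen V) (hf : DifferentiableOn ℂ f V) (hz : z ∈ V) :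
    DifferentiableAt ℂ f z := (hf z hz).differentiableAt (hV.mem_nhds hz)

lemma diffAtR (hV : IsOpen V) (hf : DifferentiableOn ℂ f V) (hz : z ∈ V) :
    DifferentiableAt ℝ f z := (diffAt hV hf hz).restrictScalars ℝ

lemma diff_conj {f : (Fin n → ℂ) → ℂ} (h : DifferentiableAt ℝ f z) :
    DifferentiableAt ℝ (fun z => conj (f z)) z :=
  (Complex.conjCLE : ℂ →L[ℝ] ℂ).differentiableAt.comp z h

lemma dz_sq (hV : IsOpen V) (hf : DifferentiableOn ℂ f V) (hz : z ∈ V) (j : Fin n) :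
    dz j (fun z => ((‖f z‖ ^ 2 : ℝ) : ℂ)) z = dz j f z * conj (f z) := by
  have h := diffAtR hV hf hz
  rw [sq_eq, dz_mul h (diff_conj h), dz_conj, dzb_holo (diffAt hV hf hz), map_zero, mul_zero,
    add_zero]

lemma dzb_sq (hV : IsOpen V) (hf : DifferentiableOn ℂ f V) (hz : z ∈ V) (k : Fin n) :
    dzb k (fun z => ((‖f z‖ ^ 2 : ℝ) : ℂ)) z = f z * conj (dz k f z) := by
  have h := diffAtR hV hf hz
  rw [sq_eq, dzb_mul h (diff_conj h), dzb_conj, dzb_holo (diffAt hV hf hz), zero_mul, zero_add]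

lemma diff_dzb_sq (hV : IsOpen V) (hf : DifferentiableOn ℂ f V) (hz : z ∈ V) (k : Fin n) :
    DifferentiableAt ℝ (dzb k (fun z => ((‖f z‖ ^ 2 : ℝ) : ℂ))) z := by
  have h1 : dzb k (fun z => ((‖f z‖ ^ 2 : ℝ) : ℂ)) =ᶠ[𝓝 z] fun z => f z * conj (dz k f z) := by
    filter_upwards [hV.mem_nhds hz] with y hy
    exact dzb_sq hV hf hy k
  refine DifferentiableAt.congr_of_eventuallyEq ?_ h1
  exact (diffAtR hV hf hz).mul (diff_conj (diffAtR hV (differentiableOn_dz_holo hV hf) hz))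

lemma dz_dzb_sq (hV : IsOpen V) (hf : DifferentiableOn ℂ f V) (hz : z ∈ V) (j k : Fin n) :
    dz j (dzb k (fun z => ((‖f z‖ ^ 2 : ℝ) : ℂ))) z = dz j f z * conj (dz k f z) := by
  have h1 : dzb k (fun z => ((‖f z‖ ^ 2 : ℝ) : ℂ)) =ᶠ[𝓝 z] fun z => f z * conj (dz k f z) := by
    filter_upwards [hV.mem_nhds hz] with y hy
    exact dzb_sq hV hf hy k
  have hd := differentiableOn_dz_holo (j := k) hV hf
  rw [dz_congr h1, dz_mul (diffAtR hV hf hz) (diff_conj (diffAtR hV hd hz)), dz_conj,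
    dzb_holo (diffAt hV hd hz), map_zero, mul_zero, add_zero]

end levi

lemma diff_coord (i : Fin n) : Differentiable ℂ fun z : Fin n → ℂ => z i :=
  differentiable_pi.1 differentiable_id i

lemma dz_coord (i j : Fin n) (z : Fin n → ℂ) :
    dz j (fun z : Fin n → ℂ => z i) z = if i = j then 1 else 0 := by
  have h := dz_eval (MvPolynomial.X i : Pol n) j z
  simp only [MvPolynomial.eval_X] at h
  rw [h, MvPolynomial.pderiv_X]
  by_cases hij : i = j
  · subst hij
    simp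
  · rw [if_neg hij, Pi.single_eq_of_ne (by exact fun hc => hij hc), map_zero]

/-- The exhaustion function. -/
noncomputable def ex (h : Pol n) (z : Fin n → ℂ) : ℝ :=
  ∑ i, ‖z i‖ ^ 2 + ‖(MvPolynomial.eval z h)⁻¹‖ ^ 2

variable {h : Pol n}

lemma ex_sum_nonneg (z : Fin n → ℂ) : 0 ≤ ∑ i, ‖z i‖ ^ 2 :=
  Finset.sum_nonneg fun _ _ => sq_nonneg _

lemma ex_nonneg (h : Pol n) (z : Fin n → ℂ) : 0 ≤ ex h z :=
  add_nonneg (ex_sum_nonneg z) (sq_nonneg _)

lemma norm_sq_le_sum (z : Fin n → ℂ) : ‖z‖ ^ 2 ≤ ∑ i, ‖z i‖ ^ 2 := by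
  have h0 := ex_sum_nonneg z
  have h1 : ‖z‖ ≤ √(∑ i, ‖z i‖ ^ 2) := by
    refine (pi_norm_le_iff_of_nonneg (Real.sqrt_nonneg _)).2 fun i => ?_
    refine Real.le_sqrt_of_sq_le ?_
    exact Finset.single_le_sum (f := fun i => ‖z i‖ ^ 2) (fun _ _ => sq_nonneg _)
      (Finset.mem_univ i)
  calc ‖z‖ ^ 2 ≤ √(∑ i, ‖z i‖ ^ 2) ^ 2 := pow_le_pow_left₀ (norm_nonneg _) h1 2
    _ = _ := Real.sq_sqrt h0

lemma norm_sq_le_ex (h : Pol n) (z : Fin n → ℂ) : ‖z‖ ^ 2 ≤ ex h z :=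
  (norm_sq_le_sum z).trans (le_add_of_nonneg_right (sq_nonneg _))

lemma inv_sq_le_ex (h : Pol n) (z : Fin n → ℂ) : ‖(MvPolynomial.eval z h)⁻¹‖ ^ 2 ≤ ex h z :=
  le_add_of_nonneg_left (ex_sum_nonneg z)

lemma le_of_sq {x y : ℝ} (h : x ^ 2 ≤ y) : x ≤ 1 + y := by nlinarith [sq_nonneg (x - 1)]

lemma norm_le_ex (h : Pol n) (z : Fin n → ℂ) : ‖z‖ ≤ 1 + ex h z := le_of_sq (norm_sq_le_ex h z)

lemma inv_le_ex (h : Pol n) (z : Fin n → ℂ) : ‖(MvPolynomial.eval z h)⁻¹‖ ≤ 1 + ex h z :=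
  le_of_sq (inv_sq_le_ex h z)

lemma one_add_norm_le (h : Pol n) (z : Fin n → ℂ) : 1 + ‖z‖ ≤ 2 * (1 + ex h z) := by
  linarith [norm_le_ex h z, ex_nonneg h z]

lemma continuous_eval (h : Pol n) : Continuous fun z : Fin n → ℂ => MvPolynomial.eval z h :=
  MvPolynomial.continuous_eval h

lemma diff_eval (h : Pol n) : Differentiable ℂ fun z : Fin n → ℂ => MvPolynomial.eval z h := by
  induction h using MvPolynomial.induction_on with
  | C a => simp
  | add p q hp hq =>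
    simp only [map_add]
    exact hp.add hq
  | mul_X p i hp =>
    simp only [map_mul, MvPolynomial.eval_X]
    exact hp.mul (diff_coord i)

lemma compact_ex (h : Pol n) (c : ℝ) :
    IsCompact {z : Fin n → ℂ | MvPolynomial.eval z h ≠ 0 ∧ ex h z ≤ c} := by
  have e1 : {z : Fin n → ℂ | MvPolynomial.eval z h ≠ 0 ∧ ex h z ≤ c} =
      {z | 1 ≤ (c - ∑ i, ‖z i‖ ^ 2) * ‖MvPolynomial.eval z h‖ ^ 2} := by
    ext z
    simp only [Set.mem_ofPred_eq]
    by_cases hz : MvPolynomial.eval z h = 0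
    · simp [hz]
    · have hp : 0 < ‖MvPolynomial.eval z h‖ ^ 2 := by positivity
      have e2 : ‖(MvPolynomial.eval z h)⁻¹‖ ^ 2 = 1 / ‖MvPolynomial.eval z h‖ ^ 2 := by
        rw [norm_inv, inv_pow, one_div]
      unfold ex
      rw [e2, ← div_le_iff₀ hp]
      constructor
      · rintro ⟨-, h1⟩
        linarith
      · intro h1
        exact ⟨hz, by linarith⟩
  refine Metric.isCompact_of_isClosed_isBounded ?_ ?_
  · rw [e1]
    have h1 := continuous_eval h
    refine isClosed_le continuous_const ?_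
    fun_prop
  · refine (Metric.isBounded_closedBall (x := (0 : Fin n → ℂ)) (r := 1 + c)).subset ?_
    rintro z ⟨-, hz⟩
    rw [mem_closedBall_zero_iff]
    exact (norm_le_ex h z).trans (by linarith)

variable {V : Set (Fin n → ℂ)}

lemma diff_inv (hV : ∀ z ∈ V, MvPolynomial.eval z h ≠ 0) :
    DifferentiableOn ℂ (fun z => (MvPolynomial.eval z h)⁻¹) V :=
  fun z hz => ((diff_eval h z).inv (hV z hz)).differentiableWithinAt

lemma ex_cast (h : Pol n) : (fun z => (ex h z : ℂ)) = fun z =>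
    ∑ i, ((‖z i‖ ^ 2 : ℝ) : ℂ) + ((‖(MvPolynomial.eval z h)⁻¹‖ ^ 2 : ℝ) : ℂ) := by
  funext z
  unfold ex
  push_cast
  rfl

lemma diff_sq (hO : IsOpen V) {f : (Fin n → ℂ) → ℂ} (hf : DifferentiableOn ℂ f V)
    {z : Fin n → ℂ} (hz : z ∈ V) : DifferentiableAt ℝ (fun z => ((‖f z‖ ^ 2 : ℝ) : ℂ)) z := by
  rw [sq_eq]
  exact (diffAtR hO hf hz).mul (diff_conj (diffAtR hO hf hz))

lemma dz_ex (hO : IsOpen V) (hV : ∀ z ∈ V, MvPolynomial.eval z h ≠ 0) {z : Fin n → ℂ}
    (hz : z ∈ V) (j : Fin n) : dz j (fun z => (ex h z : ℂ)) z = conj (z j) +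
      dz j (fun z => (MvPolynomial.eval z h)⁻¹) z * conj (MvPolynomial.eval z h)⁻¹ := by
  have hc : ∀ i, DifferentiableOn ℂ (fun z : Fin n → ℂ => z i) V :=
    fun i => (diff_coord i).differentiableOn
  rw [ex_cast, dz_add (DifferentiableAt.fun_sum fun i _ => diff_sq hO (hc i) hz)
    (diff_sq hO (diff_inv hV) hz), dz_sum _ fun i _ => diff_sq hO (hc i) hz,
    dz_sq hO (diff_inv hV) hz]
  congr 1
  rw [Finset.sum_congr rfl fun i _ => dz_sq hO (hc i) hz j]
  simp [dz_coord]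

lemma dzb_ex (hO : IsOpen V) (hV : ∀ z ∈ V, MvPolynomial.eval z h ≠ 0) {z : Fin n → ℂ}
    (hz : z ∈ V) (k : Fin n) : dzb k (fun z => (ex h z : ℂ)) z =
      ∑ i, dzb k (fun z : Fin n → ℂ => ((‖z i‖ ^ 2 : ℝ) : ℂ)) z +
      dzb k (fun z => ((‖(MvPolynomial.eval z h)⁻¹‖ ^ 2 : ℝ) : ℂ)) z := by
  have hc : ∀ i, DifferentiableOn ℂ (fun z : Fin n → ℂ => z i) V :=
    fun i => (diff_coord i).differentiableOn
  rw [ex_cast, dzb_add (DifferentiableAt.fun_sum fun i _ => diff_sq hO (hc i) hz)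
    (diff_sq hO (diff_inv hV) hz), dzb_sum _ fun i _ => diff_sq hO (hc i) hz]

lemma dz_dzb_ex (hO : IsOpen V) (hV : ∀ z ∈ V, MvPolynomial.eval z h ≠ 0) {z : Fin n → ℂ}
    (hz : z ∈ V) (j k : Fin n) : dz j (dzb k (fun z => (ex h z : ℂ))) z =
      (if j = k then 1 else 0) + dz j (fun z => (MvPolynomial.eval z h)⁻¹) z *
        conj (dz k (fun z => (MvPolynomial.eval z h)⁻¹) z) := by
  have hc : ∀ i, DifferentiableOn ℂ (fun z : Fin n → ℂ => z i) V :=
    fun i => (diff_coord i).differentiableOn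
  have h1 : dzb k (fun z => (ex h z : ℂ)) =ᶠ[𝓝 z] fun z =>
      ∑ i, dzb k (fun z : Fin n → ℂ => ((‖z i‖ ^ 2 : ℝ) : ℂ)) z +
      dzb k (fun z => ((‖(MvPolynomial.eval z h)⁻¹‖ ^ 2 : ℝ) : ℂ)) z := by
    filter_upwards [hO.mem_nhds hz] with y hy
    exact dzb_ex hO hV hy k
  rw [dz_congr h1, dz_add (DifferentiableAt.fun_sum fun i _ => diff_dzb_sq hO (hc i) hz k)
    (diff_dzb_sq hO (diff_inv hV) hz k), dz_sum _ fun i _ => diff_dzb_sq hO (hc i) hz k,
    dz_dzb_sq hO (diff_inv hV) hz]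
  congr 1
  rw [Finset.sum_congr rfl fun i _ => dz_dzb_sq hO (hc i) hz j k]
  simp [dz_coord, eq_comm]

lemma levi_ex (hO : IsOpen V) (hV : ∀ z ∈ V, MvPolynomial.eval z h ≠ 0) {z : Fin n → ℂ}
    (hz : z ∈ V) (β : Fin n → ℂ) : ∑ j, ‖β j‖ ^ 2 ≤
    (∑ j, ∑ k, dz j (dzb k (fun z => (ex h z : ℂ))) z * β j * conj (β k)).re := by
  obtain ⟨g, hg⟩ : ∃ g : Fin n → ℂ, g = fun j => dz j (fun z => (MvPolynomial.eval z h)⁻¹) z :=
    ⟨_, rfl⟩
  have e1 : ∑ j, ∑ k, dz j (dzb k (fun z => (ex h z : ℂ))) z * β j * conj (β k) =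
      ((∑ j, ‖β j‖ ^ 2 + ‖∑ j, g j * β j‖ ^ 2 : ℝ) : ℂ) := by
    have e2 : ∀ j k, dz j (dzb k (fun z => (ex h z : ℂ))) z * β j * conj (β k) =
        (if j = k then β j * conj (β k) else 0) + (g j * β j) * conj (g k * β k) := by
      intro j k
      rw [dz_dzb_ex hO hV hz, hg, map_mul]
      split_ifs <;> ring
    simp only [e2, Finset.sum_add_distrib, Finset.sum_ite_eq, Finset.mem_univ, if_true]
    push_cast
    congr 1
    · refine Finset.sum_congr rfl fun j _ => ?_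
      rw [Complex.mul_conj, Complex.normSq_eq_norm_sq]
      push_cast
      rfl
    · rw [← Finset.sum_mul_sum, ← map_sum, Complex.mul_conj, Complex.normSq_eq_norm_sq]
      push_cast
      rfl
  rw [e1, Complex.ofReal_re]
  exact le_add_of_nonneg_right (sq_nonneg _)

lemma dz_inv (hO : IsOpen V) (hV : ∀ z ∈ V, MvPolynomial.eval z h ≠ 0) {z : Fin n → ℂ}
    (hz : z ∈ V) (j : Fin n) : dz j (fun z => (MvPolynomial.eval z h)⁻¹) z =
      -(MvPolynomial.eval z (MvPolynomial.pderiv j h) * (MvPolynomial.eval z h)⁻¹ *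
        (MvPolynomial.eval z h)⁻¹) := by
  have h1 : (fun z => MvPolynomial.eval z h * (MvPolynomial.eval z h)⁻¹) =ᶠ[𝓝 z]
      fun _ => (1 : ℂ) := by
    filter_upwards [hO.mem_nhds hz] with y hy
    exact mul_inv_cancel₀ (hV y hy)
  have h2 := dz_congr (j := j) h1
  rw [dz_const, dz_mul ((diff_eval h z).restrictScalars ℝ) (diffAtR hO (diff_inv hV) hz),
    dz_eval] at h2
  have h3 := hV z hz
  have h4 : MvPolynomial.eval z h * dz j (fun z => (MvPolynomial.eval z h)⁻¹) z =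
      MvPolynomial.eval z h * -(MvPolynomial.eval z (MvPolynomial.pderiv j h) *
        (MvPolynomial.eval z h)⁻¹ * (MvPolynomial.eval z h)⁻¹) := by
    have h5 : MvPolynomial.eval z h * -(MvPolynomial.eval z (MvPolynomial.pderiv j h) *
        (MvPolynomial.eval z h)⁻¹ * (MvPolynomial.eval z h)⁻¹) =
        -(MvPolynomial.eval z (MvPolynomial.pderiv j h) * (MvPolynomial.eval z h)⁻¹) *
        (MvPolynomial.eval z h * (MvPolynomial.eval z h)⁻¹) := by ring
    rw [h5, mul_inv_cancel₀ h3]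
    linear_combination h2
  exact mul_left_cancel₀ h3 h4

lemma grad_ex (hO : IsOpen V) (hV : ∀ z ∈ V, MvPolynomial.eval z h ≠ 0) (j : Fin n) :
    ∃ (C : ℝ) (k : ℕ), 0 ≤ C ∧ ∀ z ∈ V,
      ‖dz j (fun z => (ex h z : ℂ)) z‖ ≤ C * (1 + ex h z) ^ k := by
  obtain ⟨C, k, hC, hb⟩ := pol_growth (MvPolynomial.pderiv j h)
  refine ⟨1 + C * 2 ^ k, k + 3, by positivity, fun z hz => ?_⟩
  rw [dz_ex hO hV hz, dz_inv hO hV hz]
  have h0 := ex_nonneg h z
  have h1 : (1 : ℝ) ≤ 1 + ex h z := by linarith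
  have hp0 : 0 < 1 + ex h z := by linarith
  have e1 : ‖conj (z j)‖ ≤ (1 + ex h z) ^ (k + 3) := by
    rw [Complex.norm_conj]
    refine ((norm_le_pi_norm z j).trans (norm_le_ex h z)).trans ?_
    exact le_self_pow₀ h1 (by omega)
  have e2 : ‖MvPolynomial.eval z (MvPolynomial.pderiv j h)‖ ≤ C * 2 ^ k * (1 + ex h z) ^ k := by
    refine (hb z).trans ?_
    rw [mul_assoc, ← mul_pow]
    refine mul_le_mul_of_nonneg_left (pow_le_pow_left₀ (by positivity) ?_ k) hC
    exact one_add_norm_le h z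
  have e3 := inv_le_ex h z
  have e4 : ‖-(MvPolynomial.eval z (MvPolynomial.pderiv j h) * (MvPolynomial.eval z h)⁻¹ *
        (MvPolynomial.eval z h)⁻¹) * conj (MvPolynomial.eval z h)⁻¹‖ ≤
      C * 2 ^ k * (1 + ex h z) ^ (k + 3) := by
    rw [norm_mul, norm_neg, norm_mul, norm_mul, Complex.norm_conj]
    have e5 : C * 2 ^ k * (1 + ex h z) ^ (k + 3) =
        C * 2 ^ k * (1 + ex h z) ^ k * (1 + ex h z) * (1 + ex h z) * (1 + ex h z) := by ring
    rw [e5]
    gcongr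
  refine (norm_add_le _ _).trans ?_
  rw [add_mul, one_mul]
  exact add_le_add e1 e4

lemma grad_sum_ex (hO : IsOpen V) (hV : ∀ z ∈ V, MvPolynomial.eval z h ≠ 0) :
    ∃ (C : ℝ) (k : ℕ), ∀ z ∈ V,
      ∑ j, ‖dz j (fun z => (ex h z : ℂ)) z‖ ^ 2 ≤ C * (1 + ex h z) ^ k := by
  choose C k hC hb using fun j => grad_ex (n := n) hO hV j
  refine ⟨∑ j, C j ^ 2, 2 * ∑ j, k j, fun z hz => ?_⟩
  rw [Finset.sum_mul]
  refine Finset.sum_le_sum fun j _ => ?_
  have h0 := ex_nonneg h z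
  have h1 : (1 : ℝ) ≤ 1 + ex h z := by linarith
  have h2 : k j ≤ ∑ j, k j := Finset.single_le_sum (f := k) (fun _ _ => Nat.zero_le _)
    (Finset.mem_univ j)
  calc ‖dz j (fun z => (ex h z : ℂ)) z‖ ^ 2 ≤ (C j * (1 + ex h z) ^ k j) ^ 2 :=
        pow_le_pow_left₀ (norm_nonneg _) (hb j z hz) 2
    _ = C j ^ 2 * (1 + ex h z) ^ (2 * k j) := by rw [mul_pow, ← pow_mul, mul_comm (k j) 2]
    _ ≤ C j ^ 2 * (1 + ex h z) ^ (2 * ∑ j, k j) :=
        mul_le_mul_of_nonneg_left (pow_le_pow_right₀ h1 (by omega)) (sq_nonneg _)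

lemma cd_eval (h : Pol n) : ContDiff ℝ 4 fun z : Fin n → ℂ => MvPolynomial.eval z h := by
  induction h using MvPolynomial.induction_on with
  | C a => simpa using contDiff_const
  | add p q hp hq =>
    simp only [map_add]
    exact hp.add hq
  | mul_X p i hp =>
    simp only [map_mul, MvPolynomial.eval_X]
    exact hp.mul (contDiff_apply ℝ ℂ i)

lemma smooth_ex (hV : ∀ z ∈ V, MvPolynomial.eval z h ≠ 0) : ContDiffOn ℝ 4 (ex h) V := by
  have hc := cd_eval h
  unfold ex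
  refine ContDiffOn.add ?_ ?_
  · refine ContDiff.contDiffOn (ContDiff.sum fun i _ => ?_)
    exact (contDiff_norm_sq ℝ).comp (contDiff_apply ℝ ℂ i)
  · exact (contDiff_norm_sq ℝ).comp_contDiffOn (hc.contDiffOn.inv hV)

end ExhAux

/-- The Levi form of a real function. -/
noncomputable def leviF (Φ : (Fin n → ℂ) → ℝ) (β : Fin n → ℂ) (z : Fin n → ℂ) : ℝ :=
  (∑ j, ∑ k, dz j (dzb k (fun z => (Φ z : ℂ))) z * β j * conj (β k)).re

section psh

variable {z : Fin n → ℂ} {u v : (Fin n → ℂ) → ℝ}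

/-- The derivative `∂u · β`. -/
noncomputable def dF (u : (Fin n → ℂ) → ℝ) (β : Fin n → ℂ) (z : Fin n → ℂ) : ℂ :=
  ∑ j, dz j (fun z => (u z : ℂ)) z * β j

theorem cda_ofReal (hu : ContDiffAt ℝ 2 u z) : ContDiffAt ℝ 2 (fun z => (u z : ℂ)) z :=
  Complex.ofRealCLM.contDiff.contDiffAt.comp z hu

theorem diffAt_dzb {f : (Fin n → ℂ) → ℂ} (hf : ContDiffAt ℝ 2 f z) (k : Fin n) :
    DifferentiableAt ℝ (dzb k f) z := by
  have h1 : ContDiffAt ℝ 1 (fderiv ℝ f) z := hf.fderiv_right (by norm_num)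
  have h2 : DifferentiableAt ℝ (fderiv ℝ f) z := h1.differentiableAt (by norm_num)
  have h3 : ∀ v : Fin n → ℂ, DifferentiableAt ℝ (fun y => fderiv ℝ f y v) z := fun v =>
    h2.clm_apply (differentiableAt_const v)
  have h4 : DifferentiableAt ℝ (fun y => (fderiv ℝ f y (Pi.single k 1) +
      Complex.I * fderiv ℝ f y (Pi.single k Complex.I)) * (2 : ℂ)⁻¹) z :=
    ((h3 _).add ((h3 _).const_mul Complex.I)).mul_const _
  refine h4.congr_of_eventuallyEq (Eventually.of_forall fun y => ?_)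
  simp only [dzb, div_eq_mul_inv]

theorem diffAt_dz {f : (Fin n → ℂ) → ℂ} (hf : ContDiffAt ℝ 2 f z) (k : Fin n) :
    DifferentiableAt ℝ (dz k f) z := by
  have h1 : ContDiffAt ℝ 1 (fderiv ℝ f) z := hf.fderiv_right (by norm_num)
  have h2 : DifferentiableAt ℝ (fderiv ℝ f) z := h1.differentiableAt (by norm_num)
  have h3 : ∀ v : Fin n → ℂ, DifferentiableAt ℝ (fun y => fderiv ℝ f y v) z := fun v =>
    h2.clm_apply (differentiableAt_const v)
  have h4 : DifferentiableAt ℝ (fun y => (fderiv ℝ f y (Pi.single k 1) -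
      Complex.I * fderiv ℝ f y (Pi.single k Complex.I)) * (2 : ℂ)⁻¹) z :=
    ((h3 _).sub ((h3 _).const_mul Complex.I)).mul_const _
  refine h4.congr_of_eventuallyEq (Eventually.of_forall fun y => ?_)
  simp only [dz, div_eq_mul_inv]

theorem dzb_congr_ev {f g : (Fin n → ℂ) → ℂ} (h : f =ᶠ[𝓝 z] g) (k : Fin n) :
    dzb k f =ᶠ[𝓝 z] dzb k g := by
  filter_upwards [h.eventually_nhds] with y hy
  exact dzb_congr hy

theorem leviF_congr (h : u =ᶠ[𝓝 z] v) (β : Fin n → ℂ) : leviF u β z = leviF v β z := by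
  have h1 : (fun z => (u z : ℂ)) =ᶠ[𝓝 z] fun z => (v z : ℂ) := by
    filter_upwards [h] with y hy
    rw [hy]
  unfold leviF
  congr 1
  refine Finset.sum_congr rfl fun j _ => Finset.sum_congr rfl fun k _ => ?_
  rw [dz_congr (dzb_congr_ev h1 k)]

theorem dF_congr (h : u =ᶠ[𝓝 z] v) (β : Fin n → ℂ) : dF u β z = dF v β z := by
  have h1 : (fun z => (u z : ℂ)) =ᶠ[𝓝 z] fun z => (v z : ℂ) := by
    filter_upwards [h] with y hy
    rw [hy]
  unfold dF
  refine Finset.sum_congr rfl fun j _ => ?_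
  rw [dz_congr h1]

theorem dzb_real (k : Fin n) (z : Fin n → ℂ) :
    dzb k (fun z => (u z : ℂ)) z = conj (dz k (fun z => (u z : ℂ)) z) := by
  rw [← dzb_conj]
  simp only [Complex.conj_ofReal]

theorem sum_dzb_conj (β : Fin n → ℂ) :
    ∑ k, dzb k (fun z => (u z : ℂ)) z * conj (β k) = conj (dF u β z) := by
  unfold dF
  rw [map_sum]
  refine Finset.sum_congr rfl fun k _ => ?_
  rw [dzb_real, map_mul]

/-- Composition with a function of one real variable. -/
theorem leviF_comp {φ φ' : ℝ → ℝ} {φ2 : ℝ} (hu : ContDiffAt ℝ 2 u z)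
    (h1 : ∀ᶠ y in 𝓝 z, HasDerivAt φ (φ' (u y)) (u y)) (h2 : HasDerivAt φ' φ2 (u z))
    (β : Fin n → ℂ) :
    leviF (fun z => φ (u z)) β z = φ' (u z) * leviF u β z + φ2 * ‖dF u β z‖ ^ 2 := by
  have hud : ∀ᶠ y in 𝓝 z, DifferentiableAt ℝ u y := by
    filter_upwards [hu.eventually (by norm_num)] with y hy
    exact hy.differentiableAt (by norm_num)
  have h : ∀ j k, dz j (dzb k (fun z => ((φ (u z) : ℝ) : ℂ))) z =
      ((φ2 : ℝ) : ℂ) * dz j (fun z => (u z : ℂ)) z * dzb k (fun z => (u z : ℂ)) z +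
      ((φ' (u z) : ℝ) : ℂ) * dz j (dzb k (fun z => (u z : ℂ))) z := by
    intro j k
    have h3 : dzb k (fun z => ((φ (u z) : ℝ) : ℂ)) =ᶠ[𝓝 z]
        fun z => ((φ' (u z) : ℝ) : ℂ) * dzb k (fun z => (u z : ℂ)) z := by
      filter_upwards [h1, hud] with y hy1 hy2
      rw [dzb_comp_real hy2 hy1.differentiableAt, hy1.deriv]
    rw [dz_congr h3]
    have h4 : DifferentiableAt ℝ (dzb k (fun z => (u z : ℂ))) z := diffAt_dzb (cda_ofReal hu) k
    have h5 : DifferentiableAt ℝ (fun z => ((φ' (u z) : ℝ) : ℂ)) z :=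
      Complex.ofRealCLM.differentiableAt.comp z (h2.differentiableAt.comp z hud.self_of_nhds)
    rw [dz_mul h5 h4, dz_comp_real hud.self_of_nhds h2.differentiableAt, h2.deriv]
  unfold leviF
  simp only [h]
  have e1 : ∑ j, ∑ k, (((φ2 : ℝ) : ℂ) * dz j (fun z => (u z : ℂ)) z *
        dzb k (fun z => (u z : ℂ)) z +
      ((φ' (u z) : ℝ) : ℂ) * dz j (dzb k (fun z => (u z : ℂ))) z) * β j * conj (β k) =
      ((φ2 : ℝ) : ℂ) * (dF u β z * conj (dF u β z)) +
      ((φ' (u z) : ℝ) : ℂ) *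
        ∑ j, ∑ k, dz j (dzb k (fun z => (u z : ℂ))) z * β j * conj (β k) := by
    unfold dF
    rw [map_sum, Finset.sum_mul_sum, Finset.mul_sum, Finset.mul_sum, ← Finset.sum_add_distrib]
    refine Finset.sum_congr rfl fun j _ => ?_
    rw [Finset.mul_sum, Finset.mul_sum, ← Finset.sum_add_distrib]
    refine Finset.sum_congr rfl fun k _ => ?_
    rw [dzb_real, map_mul]
    ring
  rw [e1, Complex.mul_conj, Complex.add_re, Complex.re_ofReal_mul, Complex.re_ofReal_mul,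
    Complex.ofReal_re, Complex.normSq_eq_norm_sq]
  ring

theorem dF_comp {φ : ℝ → ℝ} {φ1 : ℝ} (hu : DifferentiableAt ℝ u z)
    (h1 : HasDerivAt φ φ1 (u z)) (β : Fin n → ℂ) :
    dF (fun z => φ (u z)) β z = φ1 * dF u β z := by
  unfold dF
  rw [Finset.mul_sum]
  refine Finset.sum_congr rfl fun j _ => ?_
  rw [dz_comp_real hu h1.differentiableAt, h1.deriv]
  ring

theorem leviF_add (hu : ContDiffAt ℝ 2 u z) (hv : ContDiffAt ℝ 2 v z) (β : Fin n → ℂ) :
    leviF (fun z => u z + v z) β z = leviF u β z + leviF v β z := by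
  have h : ∀ j k, dz j (dzb k (fun z => ((u z + v z : ℝ) : ℂ))) z =
      dz j (dzb k (fun z => (u z : ℂ))) z + dz j (dzb k (fun z => (v z : ℂ))) z := by
    intro j k
    have h1 : dzb k (fun z => ((u z + v z : ℝ) : ℂ)) =ᶠ[𝓝 z]
        fun z => dzb k (fun z => (u z : ℂ)) z + dzb k (fun z => (v z : ℂ)) z := by
      filter_upwards [hu.eventually (by norm_num), hv.eventually (by norm_num)] with y h1 h2
      simp only [Complex.ofReal_add]
      exact dzb_add ((cda_ofReal h1).differentiableAt (by norm_num))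
        ((cda_ofReal h2).differentiableAt (by norm_num))
    rw [dz_congr h1]
    exact dz_add (diffAt_dzb (cda_ofReal hu) k) (diffAt_dzb (cda_ofReal hv) k)
  unfold leviF
  rw [← Complex.add_re, ← Finset.sum_add_distrib]
  congr 1
  refine Finset.sum_congr rfl fun j _ => ?_
  rw [← Finset.sum_add_distrib]
  refine Finset.sum_congr rfl fun k _ => ?_
  rw [h j k]
  ring

theorem dF_add (hu : DifferentiableAt ℝ u z) (hv : DifferentiableAt ℝ v z) (β : Fin n → ℂ) :
    dF (fun z => u z + v z) β z = dF u β z + dF v β z := by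
  unfold dF
  rw [← Finset.sum_add_distrib]
  refine Finset.sum_congr rfl fun j _ => ?_
  simp only [Complex.ofReal_add]
  have h1 : DifferentiableAt ℝ (fun z => (u z : ℂ)) z :=
    Complex.ofRealCLM.differentiableAt.comp z hu
  have h2 : DifferentiableAt ℝ (fun z => (v z : ℂ)) z :=
    Complex.ofRealCLM.differentiableAt.comp z hv
  rw [dz_add h1 h2]
  ring

theorem leviF_const (c : ℝ) (β : Fin n → ℂ) : leviF (fun _ => c) β z = 0 := by
  unfold leviF
  have h : ∀ k : Fin n, dzb k (fun _ : Fin n → ℂ => (c : ℂ)) = fun _ => 0 := by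
    intro k
    funext y
    exact dzb_const _
  simp [h, dz_const]

theorem dF_const (c : ℝ) (β : Fin n → ℂ) : dF (fun _ => c) β z = 0 := by
  unfold dF
  simp [dz_const]

theorem leviF_const_mul (hu : ContDiffAt ℝ 2 u z) (c : ℝ) (β : Fin n → ℂ) :
    leviF (fun z => c * u z) β z = c * leviF u β z := by
  have h := leviF_comp (φ := fun t => c * t) (φ' := fun _ => c) (φ2 := 0) hu
    (Eventually.of_forall fun y => by simpa using (hasDerivAt_id (u y)).const_mul c)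
    (hasDerivAt_const _ _) β
  rw [h]
  ring

theorem leviF_sum {ι : Type*} (s : Finset ι) {w : ι → (Fin n → ℂ) → ℝ}
    (hw : ∀ i ∈ s, ContDiffAt ℝ 2 (w i) z) (β : Fin n → ℂ) :
    leviF (fun z => ∑ i ∈ s, w i z) β z = ∑ i ∈ s, leviF (w i) β z := by
  classical
  induction s using Finset.induction_on with
  | empty => simp [leviF_const]
  | insert i s hi ih =>
    simp only [Finset.sum_insert hi]
    rw [leviF_add (hw i (Finset.mem_insert_self i s))
      (ContDiffAt.sum fun j hj => hw j (Finset.mem_insert_of_mem hj)),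
      ih fun j hj => hw j (Finset.mem_insert_of_mem hj)]

theorem dF_sum {ι : Type*} (s : Finset ι) {w : ι → (Fin n → ℂ) → ℝ}
    (hw : ∀ i ∈ s, DifferentiableAt ℝ (w i) z) (β : Fin n → ℂ) :
    dF (fun z => ∑ i ∈ s, w i z) β z = ∑ i ∈ s, dF (w i) β z := by
  classical
  induction s using Finset.induction_on with
  | empty => simp [dF_const]
  | insert i s hi ih =>
    simp only [Finset.sum_insert hi]
    rw [dF_add (hw i (Finset.mem_insert_self i s))
      (DifferentiableAt.fun_sum fun j hj => hw j (Finset.mem_insert_of_mem hj)),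
      ih fun j hj => hw j (Finset.mem_insert_of_mem hj)]

theorem contDiffAt_normSq {f : (Fin n → ℂ) → ℂ} (hf : AnalyticAt ℂ f z) :
    ContDiffAt ℝ 2 (fun z => ‖f z‖ ^ 2) z := by
  have h1 : ContDiffAt ℝ 2 f z := (hf.contDiffAt (n := 2)).restrict_scalars ℝ
  exact h1.norm_sq ℝ

/-- `|f|²`, `f` holomorphic. -/
theorem leviF_normSq {V : Set (Fin n → ℂ)} (hV : IsOpen V) {f : (Fin n → ℂ) → ℂ}
    (hf : DifferentiableOn ℂ f V) (hz : z ∈ V) (β : Fin n → ℂ) :
    leviF (fun z => ‖f z‖ ^ 2) β z = ‖∑ j, dz j f z * β j‖ ^ 2 := by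
  unfold leviF
  simp only [ExhAux.dz_dzb_sq hV hf hz]
  have e1 : ∑ j, ∑ k, dz j f z * conj (dz k f z) * β j * conj (β k) =
      (∑ j, dz j f z * β j) * conj (∑ j, dz j f z * β j) := by
    rw [map_sum, Finset.sum_mul_sum]
    refine Finset.sum_congr rfl fun j _ => Finset.sum_congr rfl fun k _ => ?_
    rw [map_mul]
    ring
  rw [e1, Complex.mul_conj, Complex.ofReal_re, Complex.normSq_eq_norm_sq]

theorem dF_normSq {V : Set (Fin n → ℂ)} (hV : IsOpen V) {f : (Fin n → ℂ) → ℂ}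
    (hf : DifferentiableOn ℂ f V) (hz : z ∈ V) (β : Fin n → ℂ) :
    dF (fun z => ‖f z‖ ^ 2) β z = (∑ j, dz j f z * β j) * conj (f z) := by
  unfold dF
  simp only [ExhAux.dz_sq hV hf hz]
  rw [Finset.sum_mul]
  refine Finset.sum_congr rfl fun j _ => ?_
  ring

theorem normSq_cda {V : Set (Fin n → ℂ)} (hV : IsOpen V) {f : (Fin n → ℂ) → ℂ}
    (hf : DifferentiableOn ℂ f V) (hz : z ∈ V) (m : ℕ) : ContDiffAt ℝ m (fun z => ‖f z‖ ^ 2) z :=
  ((Sheets.contDiffOn_real_of_holo hV hf m).norm_sq ℝ).contDiffAt (hV.mem_nhds hz)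

/-- `∑ |z_i|²`. -/
theorem leviF_sumSq (β : Fin n → ℂ) :
    leviF (fun z : Fin n → ℂ => ∑ i, ‖z i‖ ^ 2) β z = ∑ j, ‖β j‖ ^ 2 := by
  have hd : ∀ i, DifferentiableOn ℂ (fun z : Fin n → ℂ => z i) Set.univ := fun i =>
    (ExhAux.diff_coord i).differentiableOn
  rw [leviF_sum Finset.univ fun i _ => normSq_cda isOpen_univ (hd i) (Set.mem_univ z) 2]
  refine Finset.sum_congr rfl fun i _ => ?_
  rw [leviF_normSq isOpen_univ (hd i) (Set.mem_univ z)]
  simp [ExhAux.dz_coord]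

/-- `log (∑ exp u_i)`. -/
theorem leviF_lse {ι : Type*} [Fintype ι] [Nonempty ι] {w : ι → (Fin n → ℂ) → ℝ}
    (hw : ∀ i, ContDiffAt ℝ 2 (w i) z) {β : Fin n → ℂ} (hl : ∀ i, 0 ≤ leviF (w i) β z) :
    0 ≤ leviF (fun z => Real.log (∑ i, Real.exp (w i z))) β z := by
  set S : (Fin n → ℂ) → ℝ := fun z => ∑ i, Real.exp (w i z) with hS
  have hSpos : ∀ y, 0 < S y := fun y =>
    Finset.sum_pos (fun i _ => Real.exp_pos _) Finset.univ_nonempty
  have hE : ∀ i, ContDiffAt ℝ 2 (fun z => Real.exp (w i z)) z := fun i =>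
    (Real.contDiff_exp.contDiffAt).comp z (hw i)
  have hSc : ContDiffAt ℝ 2 S z := ContDiffAt.sum fun i _ => hE i
  have h1 : leviF (fun z => Real.log (S z)) β z =
      (S z)⁻¹ * leviF S β z + (-(S z ^ 2)⁻¹) * ‖dF S β z‖ ^ 2 := by
    refine leviF_comp (φ := Real.log) (φ' := fun t => t⁻¹) hSc
      (Eventually.of_forall fun y => Real.hasDerivAt_log (hSpos y).ne') ?_ β
    exact hasDerivAt_inv (hSpos z).ne'
  have h2 : leviF S β z = ∑ i, Real.exp (w i z) * (leviF (w i) β z + ‖dF (w i) β z‖ ^ 2) := by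
    rw [hS, leviF_sum Finset.univ fun i _ => hE i]
    refine Finset.sum_congr rfl fun i _ => ?_
    rw [leviF_comp (φ := Real.exp) (φ' := Real.exp) (hw i)
      (Eventually.of_forall fun y => Real.hasDerivAt_exp _) (Real.hasDerivAt_exp _) β]
    ring
  have h3 : dF S β z = ∑ i, (Real.exp (w i z) : ℂ) * dF (w i) β z := by
    rw [hS, dF_sum Finset.univ fun i _ => (hE i).differentiableAt (by norm_num)]
    refine Finset.sum_congr rfl fun i _ => ?_
    exact dF_comp ((hw i).differentiableAt (by norm_num)) (Real.hasDerivAt_exp _) β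
  have h4 : ‖dF S β z‖ ^ 2 ≤ S z * ∑ i, Real.exp (w i z) * ‖dF (w i) β z‖ ^ 2 := by
    have h5 : ‖dF S β z‖ ≤ ∑ i, Real.exp (w i z) * ‖dF (w i) β z‖ := by
      rw [h3]
      refine (norm_sum_le _ _).trans (Finset.sum_le_sum fun i _ => ?_)
      rw [norm_mul, Complex.norm_real, Real.norm_eq_abs, abs_of_pos (Real.exp_pos _)]
    have h6 : (∑ i, Real.exp (w i z) * ‖dF (w i) β z‖) ^ 2 ≤
        (∑ i, Real.exp (w i z)) * ∑ i, Real.exp (w i z) * ‖dF (w i) β z‖ ^ 2 := by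
      refine Finset.sum_sq_le_sum_mul_sum_of_sq_le_mul _ (fun i _ => (Real.exp_pos _).le)
        (fun i _ => by positivity) fun i _ => le_of_eq (by ring)
    exact (pow_le_pow_left₀ (norm_nonneg _) h5 2).trans h6
  have h7 : leviF (fun z => Real.log (S z)) β z =
      (S z ^ 2)⁻¹ * (S z * leviF S β z - ‖dF S β z‖ ^ 2) := by
    rw [h1]
    have := (hSpos z).ne'
    field_simp
    ring
  rw [h7]
  refine mul_nonneg (inv_nonneg.2 (sq_nonneg _)) ?_
  rw [h2]
  have h8 : ∑ i, Real.exp (w i z) * ‖dF (w i) β z‖ ^ 2 ≤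
      ∑ i, Real.exp (w i z) * (leviF (w i) β z + ‖dF (w i) β z‖ ^ 2) := by
    refine Finset.sum_le_sum fun i _ => mul_le_mul_of_nonneg_left ?_ (Real.exp_pos _).le
    linarith [hl i]
  have h9 := mul_le_mul_of_nonneg_left h8 (hSpos z).le
  linarith

/-- `log (|f|² + ε)`. -/
theorem leviF_log_normSq {V : Set (Fin n → ℂ)} (hV : IsOpen V) {f : (Fin n → ℂ) → ℂ}
    (hf : DifferentiableOn ℂ f V) (hz : z ∈ V) {ε : ℝ} (hε : 0 < ε) (β : Fin n → ℂ) :
    leviF (fun z => Real.log (‖f z‖ ^ 2 + ε)) β z =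
      ε / (‖f z‖ ^ 2 + ε) ^ 2 * ‖∑ j, dz j f z * β j‖ ^ 2 := by
  have hpos : ∀ y : Fin n → ℂ, 0 < ‖f y‖ ^ 2 + ε := fun y => by positivity
  have hc : ContDiffAt ℝ 2 (fun z => ‖f z‖ ^ 2 + ε) z :=
    (normSq_cda hV hf hz 2).add contDiffAt_const
  have h1 := leviF_comp (φ := Real.log) (φ' := fun t => t⁻¹) hc
    (Eventually.of_forall fun y => Real.hasDerivAt_log (hpos y).ne')
    (hasDerivAt_inv (hpos z).ne') β
  have h2 : leviF (fun z => ‖f z‖ ^ 2 + ε) β z = ‖∑ j, dz j f z * β j‖ ^ 2 := by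
    rw [leviF_add (normSq_cda hV hf hz 2) contDiffAt_const, leviF_const, add_zero,
      leviF_normSq hV hf hz]
  have h3 : dF (fun z => ‖f z‖ ^ 2 + ε) β z = (∑ j, dz j f z * β j) * conj (f z) := by
    rw [dF_add ((normSq_cda hV hf hz 2).differentiableAt (by norm_num))
      (differentiableAt_const _), dF_const, add_zero, dF_normSq hV hf hz]
  rw [h1, h2, h3, norm_mul, RCLike.norm_conj, mul_pow]
  have := (hpos z).ne'
  field_simp
  ring


end psh

end Vale.Agent.P300.H113
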