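import Vale.Agent.P300.H113.LeviF

/-!
P300, block PROJ: [EXHU] the exhaustion function of `V = {u v (1-u) (1-v) (1-uv) ≠ 0}` and
[PHI] the weight `φ = ∑ log (1 + |γ_i|²)`, `γ = (u, v, uv, v(1-u)/(1-uv), u(1-v)/(1-uv))`.
-/

set_option linter.all false

open MeasureTheory Filter Topology
open scoped ENNReal NNReal ComplexConjugate

namespace Vale.Agent.P300.H113

open Vale.Agent.P300.L2

variable {n : ℕ}

/-! ### Exhaustion functions of complements of hypersurfaces -/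

/-- `|z|² + |h|⁻²` is an exhaustion function of `{h ≠ 0}`. -/
theorem exh_pol (h : Pol n) :
    ∃ (C : ℝ) (k0 : ℕ), Exh {z : Fin n → ℂ | MvPolynomial.eval z h ≠ 0} (ExhAux.ex h) C k0 := by
  have hO : IsOpen {z : Fin n → ℂ | MvPolynomial.eval z h ≠ 0} :=
    isOpen_ne_fun (ExhAux.continuous_eval h) continuous_const
  have hV : ∀ z ∈ {z : Fin n → ℂ | MvPolynomial.eval z h ≠ 0}, MvPolynomial.eval z h ≠ 0 :=
    fun z hz => hz
  obtain ⟨C, k0, hg⟩ := ExhAux.grad_sum_ex hO hV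
  exact ⟨C, k0, ExhAux.smooth_ex hV, fun z _ => ExhAux.norm_sq_le_ex h z,
    fun c => ExhAux.compact_ex h c, fun z hz β => ExhAux.levi_ex hO hV hz β, hg⟩

/-- `Ω = {uv ≠ 1}`. -/
def Om : Set (Fin 2 → ℂ) := {z | z 0 * z 1 ≠ 1}

/-- `V = {u v (1-u) (1-v) (1-uv) ≠ 0}`. -/
def VU : Set (Fin 2 → ℂ) :=
  {z | z 0 ≠ 0 ∧ z 1 ≠ 0 ∧ z 0 ≠ 1 ∧ z 1 ≠ 1 ∧ z 0 * z 1 ≠ 1}

/-- The polynomial `u v (1-u) (1-v) (1-uv)`. -/
noncomputable def hU : Pol 2 :=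
  MvPolynomial.X 0 * MvPolynomial.X 1 * (1 - MvPolynomial.X 0) * (1 - MvPolynomial.X 1) *
    (1 - MvPolynomial.X 0 * MvPolynomial.X 1)

theorem eval_hU (z : Fin 2 → ℂ) : MvPolynomial.eval z hU =
    z 0 * z 1 * (1 - z 0) * (1 - z 1) * (1 - z 0 * z 1) := by
  simp [hU]

theorem VU_eq : VU = {z : Fin 2 → ℂ | MvPolynomial.eval z hU ≠ 0} := by
  ext z
  simp only [VU, Set.mem_setOf_eq, eval_hU, ne_eq, mul_eq_zero, not_or, sub_eq_zero]
  constructor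
  · rintro ⟨h1, h2, h3, h4, h5⟩
    exact ⟨⟨⟨⟨h1, h2⟩, fun h => h3 h.symm⟩, fun h => h4 h.symm⟩, fun h => h5 h.symm⟩
  · rintro ⟨⟨⟨⟨h1, h2⟩, h3⟩, h4⟩, h5⟩
    exact ⟨h1, h2, fun h => h3 h.symm, fun h => h4 h.symm, fun h => h5 h.symm⟩

theorem isOpen_VU : IsOpen VU := by
  rw [VU_eq]
  exact isOpen_ne_fun (ExhAux.continuous_eval hU) continuous_const

theorem isOpen_Om : IsOpen Om :=
  isOpen_ne_fun ((continuous_apply 0).mul (continuous_apply 1)) continuous_const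

theorem VU_subset_Om : VU ⊆ Om := fun _ hz => hz.2.2.2.2

/-- **[EXHU]** The exhaustion function of `V`. -/
theorem exhU : ∃ (p : (Fin 2 → ℂ) → ℝ) (C : ℝ) (k0 : ℕ), Exh VU p C k0 ∧
    (∀ z, p z = ∑ i, ‖z i‖ ^ 2 +
      ‖(z 0 * z 1 * (1 - z 0) * (1 - z 1) * (1 - z 0 * z 1))⁻¹‖ ^ 2) := by
  obtain ⟨C, k0, h⟩ := exh_pol hU
  rw [← VU_eq] at h
  refine ⟨_, C, k0, h, fun z => ?_⟩
  unfold ExhAux.ex
  rw [eval_hU]

/-! ### Weights `∑ log (1 + |γ_i|²)` -/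

section general

variable {ι : Type*} [Fintype ι] {V : Set (Fin n → ℂ)} {γ : ι → (Fin n → ℂ) → ℂ}

/-- `∑ log (1 + |γ_i|²)`. -/
noncomputable def logW (γ : ι → (Fin n → ℂ) → ℂ) (z : Fin n → ℂ) : ℝ :=
  ∑ i, Real.log (1 + ‖γ i z‖ ^ 2)

theorem logW_nonneg (γ : ι → (Fin n → ℂ) → ℂ) (z : Fin n → ℂ) : 0 ≤ logW γ z :=
  Finset.sum_nonneg fun i _ => Real.log_nonneg (by nlinarith [sq_nonneg ‖γ i z‖])

theorem logW_contDiffOn (hV : IsOpen V) (hγ : ∀ i, DifferentiableOn ℂ (γ i) V) (m : ℕ) :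
    ContDiffOn ℝ m (logW γ) V := by
  refine ContDiffOn.sum fun i _ => ?_
  refine ContDiffOn.log (contDiffOn_const.add
    ((Sheets.contDiffOn_real_of_holo hV (hγ i) m).norm_sq ℝ)) fun z _ => ?_
  positivity

theorem leviF_logW (hV : IsOpen V) (hγ : ∀ i, DifferentiableOn ℂ (γ i) V) {z : Fin n → ℂ}
    (hz : z ∈ V) (β : Fin n → ℂ) : leviF (logW γ) β z =
      ∑ i, 1 / (1 + ‖γ i z‖ ^ 2) ^ 2 * ‖∑ j, dz j (γ i) z * β j‖ ^ 2 := by
  unfold logW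
  rw [leviF_sum Finset.univ fun i _ => ?_]
  · refine Finset.sum_congr rfl fun i _ => ?_
    have h := leviF_log_normSq hV (hγ i) hz one_pos β
    simp only [add_comm _ (1 : ℝ)] at h
    exact h
  · have h1 : ContDiffOn ℝ (2 : ℕ) (fun z => Real.log (1 + ‖γ i z‖ ^ 2)) V := by
      refine ContDiffOn.log (contDiffOn_const.add
        ((Sheets.contDiffOn_real_of_holo hV (hγ i) 2).norm_sq ℝ)) fun z _ => ?_
      positivity
    exact h1.contDiffAt (hV.mem_nhds hz)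

theorem leviF_logW_nonneg (hV : IsOpen V) (hγ : ∀ i, DifferentiableOn ℂ (γ i) V)
    {z : Fin n → ℂ} (hz : z ∈ V) (β : Fin n → ℂ) : 0 ≤ leviF (logW γ) β z := by
  rw [leviF_logW hV hγ hz]
  positivity

/-- If the coordinates are among the `γ_i`, the Levi form is strictly positive. -/
theorem leviF_logW_ge (hV : IsOpen V) (hγ : ∀ i, DifferentiableOn ℂ (γ i) V)
    {e : Fin n → ι} (he : Function.Injective e) (hc : ∀ j, ∀ z ∈ V, γ (e j) z = z j)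
    {R : ℝ} {z : Fin n → ℂ} (hz : z ∈ V) (hR : ‖z‖ ≤ R) (β : Fin n → ℂ) :
    1 / (1 + R ^ 2) ^ 2 * ∑ j, ‖β j‖ ^ 2 ≤ leviF (logW γ) β z := by
  classical
  rw [leviF_logW hV hγ hz, Finset.mul_sum]
  have h1 : ∀ j, 1 / (1 + R ^ 2) ^ 2 * ‖β j‖ ^ 2 ≤
      1 / (1 + ‖γ (e j) z‖ ^ 2) ^ 2 * ‖∑ k, dz k (γ (e j)) z * β k‖ ^ 2 := by
    intro j
    have h2 : ∀ k, dz k (γ (e j)) z = if j = k then 1 else 0 := by
      intro k
      have h3 : γ (e j) =ᶠ[𝓝 z] fun z => z j := by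
        filter_upwards [hV.mem_nhds hz] with y hy
        exact hc j y hy
      rw [dz_congr h3, ExhAux.dz_coord]
    have h4 : ∑ k, dz k (γ (e j)) z * β k = β j := by
      simp [h2]
    rw [h4, hc j z hz]
    have h5 : ‖z j‖ ≤ R := (norm_le_pi_norm z j).trans hR
    have h6 : (1 + ‖z j‖ ^ 2) ^ 2 ≤ (1 + R ^ 2) ^ 2 := by
      have := norm_nonneg (z j)
      gcongr
    have h7 : 1 / (1 + R ^ 2) ^ 2 ≤ 1 / (1 + ‖z j‖ ^ 2) ^ 2 :=
      one_div_le_one_div_of_le (by positivity) h6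
    exact mul_le_mul_of_nonneg_right h7 (sq_nonneg _)
  calc ∑ j, 1 / (1 + R ^ 2) ^ 2 * ‖β j‖ ^ 2
      ≤ ∑ j, 1 / (1 + ‖γ (e j) z‖ ^ 2) ^ 2 * ‖∑ k, dz k (γ (e j)) z * β k‖ ^ 2 :=
        Finset.sum_le_sum fun j _ => h1 j
    _ = ∑ i ∈ Finset.univ.image e,
          1 / (1 + ‖γ i z‖ ^ 2) ^ 2 * ‖∑ k, dz k (γ i) z * β k‖ ^ 2 := by
        rw [Finset.sum_image fun a _ b _ h => he h]
    _ ≤ _ := Finset.sum_le_sum_of_subset_of_nonneg (Finset.subset_univ _)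
        fun i _ _ => by positivity

end general

/-! ### The five cross ratios in a node chart -/

/-- The five cross ratios `u, v, uv, v(1-u)/(1-uv), u(1-v)/(1-uv)`. -/
noncomputable def gam (i : Fin 5) (z : Fin 2 → ℂ) : ℂ :=
  ![z 0, z 1, z 0 * z 1, z 1 * (1 - z 0) / (1 - z 0 * z 1), z 0 * (1 - z 1) / (1 - z 0 * z 1)] i

/-- **[PHI]** the weight `φ = ∑ log (1 + |γ_i|²)`. -/
noncomputable def phi (z : Fin 2 → ℂ) : ℝ := ∑ i, Real.log (1 + ‖gam i z‖ ^ 2)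

theorem phi_eq : phi = logW gam := rfl

theorem differentiableOn_gam (i : Fin 5) : DifferentiableOn ℂ (gam i) Om := by
  have h0 : Differentiable ℂ fun z : Fin 2 → ℂ => z 0 := ExhAux.diff_coord 0
  have h1 : Differentiable ℂ fun z : Fin 2 → ℂ => z 1 := ExhAux.diff_coord 1
  have hden : ∀ z ∈ Om, 1 - z 0 * z 1 ≠ 0 := fun z hz h => hz (sub_eq_zero.1 h).symm
  fin_cases i
  · exact h0.differentiableOn
  · exact h1.differentiableOn
  · exact (h0.mul h1).differentiableOn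
  · have h2 : DifferentiableOn ℂ (fun z : Fin 2 → ℂ => z 1 * (1 - z 0) * (1 - z 0 * z 1)⁻¹) Om := by
      intro z hz
      have h3 : DifferentiableAt ℂ (fun z : Fin 2 → ℂ => (1 - z 0 * z 1)⁻¹) z :=
        (((differentiable_const 1).sub (h0.mul h1)) z).inv (hden z hz)
      exact (((h1.mul ((differentiable_const 1).sub h0)) z).mul h3).differentiableWithinAt
    exact h2
  · have h2 : DifferentiableOn ℂ (fun z : Fin 2 → ℂ => z 0 * (1 - z 1) * (1 - z 0 * z 1)⁻¹) Om := by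
      intro z hz
      have h3 : DifferentiableAt ℂ (fun z : Fin 2 → ℂ => (1 - z 0 * z 1)⁻¹) z :=
        (((differentiable_const 1).sub (h0.mul h1)) z).inv (hden z hz)
      exact (((h0.mul ((differentiable_const 1).sub h1)) z).mul h3).differentiableWithinAt
    exact h2

theorem phi_nonneg (z : Fin 2 → ℂ) : 0 ≤ phi z := logW_nonneg gam z

theorem phi_contDiffOn (m : ℕ) : ContDiffOn ℝ m phi Om :=
  logW_contDiffOn isOpen_Om differentiableOn_gam m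

theorem leviF_phi_nonneg {z : Fin 2 → ℂ} (hz : z ∈ Om) (β : Fin 2 → ℂ) :
    0 ≤ leviF phi β z := leviF_logW_nonneg isOpen_Om differentiableOn_gam hz β

/-- Strict positivity on bounded sets. -/
theorem leviF_phi_ge {R : ℝ} {z : Fin 2 → ℂ} (hz : z ∈ Om) (hR : ‖z‖ ≤ R) (β : Fin 2 → ℂ) :
    1 / (1 + R ^ 2) ^ 2 * ∑ j, ‖β j‖ ^ 2 ≤ leviF phi β z := by
  refine leviF_logW_ge (e := ![0, 1]) isOpen_Om differentiableOn_gam ?_ ?_ hz hR β
  · intro a b h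
    fin_cases a <;> fin_cases b <;> simp_all
  · intro j z _
    fin_cases j <;> rfl

/-- Around every point of `Ω` there is a ball with all the bounds needed for the weights. -/
theorem phi_local {w₀ : Fin 2 → ℂ} (hw : w₀ ∈ Om) : ∃ ε : ℝ, 0 < ε ∧
    Metric.closedBall w₀ (2 * ε) ⊆ Om ∧ ∃ c : ℝ, 0 < c ∧
      (∀ z ∈ Metric.closedBall w₀ (2 * ε), ∀ β : Fin 2 → ℂ,
        c * ∑ j, ‖β j‖ ^ 2 ≤ leviF phi β z) ∧
      ∃ B : ℝ, ∀ z ∈ Metric.closedBall w₀ (2 * ε), phi z ≤ B := by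
  obtain ⟨δ, hδ, hb⟩ := Metric.nhds_basis_closedBall.mem_iff.1 (isOpen_Om.mem_nhds hw)
  refine ⟨δ / 2, by positivity, by rwa [mul_div_cancel₀ _ two_ne_zero], ?_⟩
  rw [mul_div_cancel₀ _ (two_ne_zero (α := ℝ))]
  refine ⟨1 / (1 + (‖w₀‖ + δ) ^ 2) ^ 2, by positivity, fun z hz β => ?_, ?_⟩
  · refine leviF_phi_ge (hb hz) ?_ β
    have h1 : ‖z - w₀‖ ≤ δ := mem_closedBall_iff_norm.1 hz
    calc ‖z‖ = ‖w₀ + (z - w₀)‖ := by rw [add_sub_cancel]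
      _ ≤ ‖w₀‖ + δ := (norm_add_le _ _).trans (by linarith)
  · have h1 : ContinuousOn phi (Metric.closedBall w₀ δ) :=
      ((phi_contDiffOn 0).continuousOn).mono hb
    obtain ⟨B, hB⟩ := (isCompact_closedBall w₀ δ).exists_bound_of_continuousOn h1
    exact ⟨B, fun z hz => (le_abs_self _).trans (hB z hz)⟩

/-- On `V` the coordinates and the inverses of the five linear forms are controlled by `p`. -/
theorem exp_phi_ge (z : Fin 2 → ℂ) : (1 + ‖z 0‖ ^ 2) * (1 + ‖z 1‖ ^ 2) ≤ Real.exp (phi z) := by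
  have h1 : Real.log (1 + ‖z 0‖ ^ 2) + Real.log (1 + ‖z 1‖ ^ 2) ≤ phi z := by
    unfold phi
    rw [Fin.sum_univ_five]
    have h2 : ∀ i, 0 ≤ Real.log (1 + ‖gam i z‖ ^ 2) := fun i =>
      Real.log_nonneg (by nlinarith [sq_nonneg ‖gam i z‖])
    have h3 : gam 0 z = z 0 := rfl
    have h4 : gam 1 z = z 1 := rfl
    rw [h3, h4]
    linarith [h2 2, h2 3, h2 4]
  calc (1 + ‖z 0‖ ^ 2) * (1 + ‖z 1‖ ^ 2)
      = Real.exp (Real.log (1 + ‖z 0‖ ^ 2) + Real.log (1 + ‖z 1‖ ^ 2)) := by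
        rw [Real.exp_add, Real.exp_log (by positivity), Real.exp_log (by positivity)]
    _ ≤ _ := Real.exp_le_exp.2 h1

/-- `log (1 + |z|²) ≤ φ`. -/
theorem log_le_phi (z : Fin 2 → ℂ) : Real.log (1 + ‖z‖ ^ 2) ≤ phi z := by
  rw [← Real.log_exp (phi z)]
  refine Real.log_le_log (by positivity) ((?_ : _ ≤ _).trans (exp_phi_ge z))
  have h1 : ‖z‖ ^ 2 ≤ ‖z 0‖ ^ 2 + ‖z 1‖ ^ 2 := by
    have := ExhAux.norm_sq_le_sum z
    rwa [Fin.sum_univ_two] at this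
  nlinarith [mul_nonneg (sq_nonneg ‖z 0‖) (sq_nonneg ‖z 1‖)]

end Vale.Agent.P300.H113
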