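import Vale.Agent.P300.H113.Phi
import Vale.Agent.P300.H266.Model

/-!
P300, block PROJ: [PHI] for the symmetric weight `H266.phi w = ∑ log (1 + |c_j|² + |1 - c_j|²)`
and [EXHU] with `|w 0|⁻¹ ≤ 1 + p w`, `|w 1|⁻¹ ≤ 1 + p w` on `H266.V`.
-/

set_option linter.all false

open MeasureTheory Filter Topology
open scoped ENNReal NNReal ComplexConjugate

namespace Vale.Agent.P300.H113

open Vale.Agent.P300.L2

variable {n : ℕ}

/-! ### Exhaustion functions for several polynomials -/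

section fam

variable {κ : Type*} [Fintype κ] (h : κ → Pol n)

/-- `|z|² + ∑ |h_k|⁻²`. -/
noncomputable def exF (z : Fin n → ℂ) : ℝ :=
  ∑ i, ‖z i‖ ^ 2 + ∑ k, ‖(MvPolynomial.eval z (h k))⁻¹‖ ^ 2

variable {h} {V : Set (Fin n → ℂ)} {z : Fin n → ℂ}

theorem exF_ge (z : Fin n → ℂ) : ∑ i, ‖z i‖ ^ 2 ≤ exF h z :=
  le_add_of_nonneg_right (Finset.sum_nonneg fun _ _ => sq_nonneg _)

theorem exF_nonneg (z : Fin n → ℂ) : 0 ≤ exF h z :=
  (ExhAux.ex_sum_nonneg z).trans (exF_ge z)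

theorem inv_sq_le_exF (z : Fin n → ℂ) (k : κ) :
    ‖(MvPolynomial.eval z (h k))⁻¹‖ ^ 2 ≤ exF h z := by
  have h1 : ‖(MvPolynomial.eval z (h k))⁻¹‖ ^ 2 ≤
      ∑ k, ‖(MvPolynomial.eval z (h k))⁻¹‖ ^ 2 :=
    Finset.single_le_sum (f := fun k => ‖(MvPolynomial.eval z (h k))⁻¹‖ ^ 2)
      (fun _ _ => sq_nonneg _) (Finset.mem_univ k)
  have h2 := ExhAux.ex_sum_nonneg z
  unfold exF
  linarith

theorem inv_le_exF (z : Fin n → ℂ) (k : κ) : ‖(MvPolynomial.eval z (h k))⁻¹‖ ≤ 1 + exF h z :=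
  ExhAux.le_of_sq (inv_sq_le_exF z k)

theorem norm_le_exF (z : Fin n → ℂ) : ‖z‖ ≤ 1 + exF h z :=
  ExhAux.le_of_sq ((ExhAux.norm_sq_le_sum z).trans (exF_ge z))

theorem exF_smooth (hO : IsOpen V) (hV : ∀ z ∈ V, ∀ k, MvPolynomial.eval z (h k) ≠ 0) (m : ℕ) :
    ContDiffOn ℝ m (exF h) V := by
  unfold exF
  refine ContDiffOn.add ?_ (ContDiffOn.sum fun k _ => ?_)
  · refine ContDiff.contDiffOn (ContDiff.sum fun i _ => ?_)
    exact (contDiff_norm_sq ℝ).comp (contDiff_apply ℝ ℂ i)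
  · exact (Sheets.contDiffOn_real_of_holo hO
      (ExhAux.diff_inv fun z hz => hV z hz k) m).norm_sq ℝ

theorem exF_compact (c : ℝ) :
    IsCompact {z : Fin n → ℂ | (∀ k, MvPolynomial.eval z (h k) ≠ 0) ∧ exF h z ≤ c} := by
  set c' : ℝ := max c 1 with hc'
  have hc'0 : 0 < c' := lt_of_lt_of_le one_pos (le_max_right _ _)
  -- the closed set on which all `|h_k|` are bounded below
  set T : Set (Fin n → ℂ) := Metric.closedBall 0 (1 + c') ∩
    ⋂ k, {z | 1 ≤ c' * ‖MvPolynomial.eval z (h k)‖ ^ 2} with hT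
  have hTc : IsCompact T := by
    refine (isCompact_closedBall _ _).inter_right (isClosed_iInter fun k => ?_)
    have h1 := ExhAux.continuous_eval (h k)
    exact isClosed_le continuous_const (by fun_prop)
  have hTne : ∀ z ∈ T, ∀ k, MvPolynomial.eval z (h k) ≠ 0 := by
    intro z hz k h0
    have h1 : 1 ≤ c' * ‖MvPolynomial.eval z (h k)‖ ^ 2 := (Set.mem_iInter.1 hz.2 k)
    rw [h0] at h1
    norm_num at h1
  have hTs : ∀ z : Fin n → ℂ, (∀ k, MvPolynomial.eval z (h k) ≠ 0) → exF h z ≤ c → z ∈ T := by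
    intro z hz hzc
    refine ⟨?_, Set.mem_iInter.2 fun k => ?_⟩
    · rw [mem_closedBall_zero_iff]
      exact (norm_le_exF (h := h) z).trans (by linarith [le_max_left c 1])
    · have h1 := (inv_sq_le_exF (h := h) z k).trans (hzc.trans (le_max_left c 1))
      have h2 : 0 < ‖MvPolynomial.eval z (h k)‖ ^ 2 := pow_pos (norm_pos_iff.2 (hz k)) 2
      rw [norm_inv, inv_pow] at h1
      have h3 := mul_le_mul_of_nonneg_right h1 h2.le
      rwa [inv_mul_cancel₀ h2.ne'] at h3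
  have hcont : ContinuousOn (exF h) T := by
    unfold exF
    refine ContinuousOn.add ?_ (continuousOn_finsetSum _ fun k _ => ?_)
    · exact (continuous_finsetSum _ fun j _ => ((continuous_apply j).norm.pow 2)).continuousOn
    · exact (((ExhAux.continuous_eval (h k)).continuousOn.inv₀
        fun z hz => hTne z hz k).norm.pow 2)
  have e1 : {z : Fin n → ℂ | (∀ k, MvPolynomial.eval z (h k) ≠ 0) ∧ exF h z ≤ c} =
      T ∩ (exF h) ⁻¹' Set.Iic c := by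
    ext z
    exact ⟨fun hz => ⟨hTs z hz.1 hz.2, hz.2⟩, fun hz => ⟨hTne z hz.1, hz.2⟩⟩
  rw [e1]
  exact hTc.of_isClosed_subset (hcont.preimage_isClosed_of_isClosed hTc.isClosed isClosed_Iic)
    Set.inter_subset_left

theorem exF_levi (hO : IsOpen V) (hV : ∀ z ∈ V, ∀ k, MvPolynomial.eval z (h k) ≠ 0)
    (hz : z ∈ V) (β : Fin n → ℂ) : ∑ j, ‖β j‖ ^ 2 ≤ leviF (exF h) β z := by
  have hd : ∀ i, DifferentiableOn ℂ (fun z : Fin n → ℂ => z i) Set.univ := fun i =>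
    (ExhAux.diff_coord i).differentiableOn
  have hi : ∀ k, DifferentiableOn ℂ (fun z => (MvPolynomial.eval z (h k))⁻¹) V := fun k =>
    ExhAux.diff_inv fun z hz => hV z hz k
  have hc1 : ContDiffAt ℝ 2 (fun z : Fin n → ℂ => ∑ j, ‖z j‖ ^ 2) z :=
    ContDiffAt.sum fun j _ => normSq_cda isOpen_univ (hd j) (Set.mem_univ z) 2
  have hc2 : ∀ k, ContDiffAt ℝ 2 (fun z => ‖(MvPolynomial.eval z (h k))⁻¹‖ ^ 2) z := fun k =>
    normSq_cda hO (hi k) hz 2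
  have h2 := leviF_add hc1 (ContDiffAt.sum (s := Finset.univ) fun k _ => hc2 k) β
  rw [leviF_sumSq, leviF_sum Finset.univ fun k _ => hc2 k] at h2
  have h3 : leviF (exF h) β z = ∑ j, ‖β j‖ ^ 2 +
      ∑ k, leviF (fun z => ‖(MvPolynomial.eval z (h k))⁻¹‖ ^ 2) β z := h2
  rw [h3]
  refine le_add_of_nonneg_right (Finset.sum_nonneg fun k _ => ?_)
  rw [leviF_normSq hO (hi k) hz]
  positivity

theorem exF_cast : (fun z => (exF h z : ℂ)) = fun z =>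
    ∑ i, ((‖z i‖ ^ 2 : ℝ) : ℂ) + ∑ k, ((‖(MvPolynomial.eval z (h k))⁻¹‖ ^ 2 : ℝ) : ℂ) := by
  funext z
  unfold exF
  push_cast
  rfl

theorem dz_exF (hO : IsOpen V) (hV : ∀ z ∈ V, ∀ k, MvPolynomial.eval z (h k) ≠ 0)
    (hz : z ∈ V) (j : Fin n) : dz j (fun z => (exF h z : ℂ)) z = conj (z j) +
      ∑ k, dz j (fun z => (MvPolynomial.eval z (h k))⁻¹) z *
        conj (MvPolynomial.eval z (h k))⁻¹ := by
  have hc : ∀ i, DifferentiableOn ℂ (fun z : Fin n → ℂ => z i) V :=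
    fun i => (ExhAux.diff_coord i).differentiableOn
  have hi : ∀ k, DifferentiableOn ℂ (fun z => (MvPolynomial.eval z (h k))⁻¹) V := fun k =>
    ExhAux.diff_inv fun z hz => hV z hz k
  rw [exF_cast, dz_add (DifferentiableAt.fun_sum fun i _ => ExhAux.diff_sq hO (hc i) hz)
    (DifferentiableAt.fun_sum fun k _ => ExhAux.diff_sq hO (hi k) hz),
    dz_sum _ fun i _ => ExhAux.diff_sq hO (hc i) hz,
    dz_sum _ fun k _ => ExhAux.diff_sq hO (hi k) hz]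
  congr 1
  · rw [Finset.sum_congr rfl fun i _ => ExhAux.dz_sq hO (hc i) hz j]
    simp [ExhAux.dz_coord]
  · exact Finset.sum_congr rfl fun k _ => ExhAux.dz_sq hO (hi k) hz j

theorem exF_grad1 (hO : IsOpen V) (hV : ∀ z ∈ V, ∀ k, MvPolynomial.eval z (h k) ≠ 0)
    (j : Fin n) : ∃ (C : ℝ) (m : ℕ), 0 ≤ C ∧ ∀ z ∈ V,
      ‖dz j (fun z => (exF h z : ℂ)) z‖ ≤ C * (1 + exF h z) ^ m := by
  choose C m hC hb using fun k => ExhAux.pol_growth (MvPolynomial.pderiv j (h k))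
  refine ⟨1 + ∑ k, C k * 2 ^ m k, (∑ k, m k) + 3,
    add_nonneg zero_le_one (Finset.sum_nonneg fun k _ => mul_nonneg (hC k) (by positivity)),
    fun z hz => ?_⟩
  rw [dz_exF hO hV hz]
  have h0 := exF_nonneg (h := h) z
  have h1 : (1 : ℝ) ≤ 1 + exF h z := by linarith
  have hp0 : 0 < 1 + exF h z := by linarith
  have e1 : ‖conj (z j)‖ ≤ (1 + exF h z) ^ ((∑ k, m k) + 3) := by
    rw [Complex.norm_conj]
    refine ((norm_le_pi_norm z j).trans (norm_le_exF (h := h) z)).trans ?_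
    exact le_self_pow₀ h1 (by omega)
  have e2 : ∀ k, ‖dz j (fun z => (MvPolynomial.eval z (h k))⁻¹) z *
      conj (MvPolynomial.eval z (h k))⁻¹‖ ≤ C k * 2 ^ m k * (1 + exF h z) ^ ((∑ k, m k) + 3) := by
    intro k
    rw [ExhAux.dz_inv hO (fun z hz => hV z hz k) hz]
    have e3 : ‖MvPolynomial.eval z (MvPolynomial.pderiv j (h k))‖ ≤
        C k * 2 ^ m k * (1 + exF h z) ^ m k := by
      refine (hb k z).trans ?_
      rw [mul_assoc, ← mul_pow]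
      refine mul_le_mul_of_nonneg_left (pow_le_pow_left₀ (by positivity) ?_ _) (hC k)
      have := norm_le_exF (h := h) z
      linarith
    have e4 := inv_le_exF (h := h) z k
    have hCk := hC k
    have e5 : ‖-(MvPolynomial.eval z (MvPolynomial.pderiv j (h k)) *
        (MvPolynomial.eval z (h k))⁻¹ * (MvPolynomial.eval z (h k))⁻¹) *
        conj (MvPolynomial.eval z (h k))⁻¹‖ ≤ C k * 2 ^ m k * (1 + exF h z) ^ (m k + 3) := by
      rw [norm_mul, norm_neg, norm_mul, norm_mul, Complex.norm_conj]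
      have e6 : C k * 2 ^ m k * (1 + exF h z) ^ (m k + 3) =
          C k * 2 ^ m k * (1 + exF h z) ^ m k * (1 + exF h z) * (1 + exF h z) *
            (1 + exF h z) := by ring
      rw [e6]
      gcongr
    refine e5.trans (mul_le_mul_of_nonneg_left (pow_le_pow_right₀ h1 ?_) (by positivity))
    have : m k ≤ ∑ k, m k := Finset.single_le_sum (f := m) (fun _ _ => Nat.zero_le _)
      (Finset.mem_univ k)
    omega
  calc _ ≤ ‖conj (z j)‖ + ‖∑ k, dz j (fun z => (MvPolynomial.eval z (h k))⁻¹) z *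
        conj (MvPolynomial.eval z (h k))⁻¹‖ := norm_add_le _ _
    _ ≤ (1 + exF h z) ^ ((∑ k, m k) + 3) +
        ∑ k, C k * 2 ^ m k * (1 + exF h z) ^ ((∑ k, m k) + 3) :=
      add_le_add e1 ((norm_sum_le _ _).trans (Finset.sum_le_sum fun k _ => e2 k))
    _ = _ := by
      rw [add_mul, one_mul, Finset.sum_mul]

theorem exF_grad (hO : IsOpen V) (hV : ∀ z ∈ V, ∀ k, MvPolynomial.eval z (h k) ≠ 0) :
    ∃ (C : ℝ) (m : ℕ), ∀ z ∈ V,
      ∑ j, ‖dz j (fun z => (exF h z : ℂ)) z‖ ^ 2 ≤ C * (1 + exF h z) ^ m := by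
  choose C k hC hb using fun j => exF_grad1 (h := h) hO hV j
  refine ⟨∑ j, C j ^ 2, 2 * ∑ j, k j, fun z hz => ?_⟩
  rw [Finset.sum_mul]
  refine Finset.sum_le_sum fun j _ => ?_
  have h0 := exF_nonneg (h := h) z
  have h1 : (1 : ℝ) ≤ 1 + exF h z := by linarith
  have h2 : k j ≤ ∑ j, k j := Finset.single_le_sum (f := k) (fun _ _ => Nat.zero_le _)
    (Finset.mem_univ j)
  calc ‖dz j (fun z => (exF h z : ℂ)) z‖ ^ 2 ≤ (C j * (1 + exF h z) ^ k j) ^ 2 :=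
        pow_le_pow_left₀ (norm_nonneg _) (hb j z hz) 2
    _ = C j ^ 2 * (1 + exF h z) ^ (2 * k j) := by rw [mul_pow, ← pow_mul, mul_comm (k j) 2]
    _ ≤ C j ^ 2 * (1 + exF h z) ^ (2 * ∑ j, k j) :=
        mul_le_mul_of_nonneg_left (pow_le_pow_right₀ h1 (by omega)) (sq_nonneg _)

/-- `|z|² + ∑ |h_k|⁻²` is an exhaustion function of `{h_k ≠ 0 for all k}`. -/
theorem exh_fam (h : κ → Pol n) : ∃ (C : ℝ) (k0 : ℕ),
    Exh {z : Fin n → ℂ | ∀ k, MvPolynomial.eval z (h k) ≠ 0} (exF h) C k0 := by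
  have hO : IsOpen {z : Fin n → ℂ | ∀ k, MvPolynomial.eval z (h k) ≠ 0} := by
    rw [Set.setOf_forall]
    exact isOpen_iInter_of_finite fun k =>
      isOpen_ne_fun (ExhAux.continuous_eval (h k)) continuous_const
  have hV : ∀ z ∈ {z : Fin n → ℂ | ∀ k, MvPolynomial.eval z (h k) ≠ 0},
      ∀ k, MvPolynomial.eval z (h k) ≠ 0 := fun z hz => hz
  obtain ⟨C, k0, hg⟩ := exF_grad (h := h) hO hV
  exact ⟨C, k0, exF_smooth hO hV 4, fun z _ => (ExhAux.norm_sq_le_sum z).trans (exF_ge z),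
    fun c => exF_compact c, fun z hz β => exF_levi hO hV hz β, hg⟩

end fam

/-! ### The exhaustion function of `H266.V` -/

/-- The five linear (and quadratic) forms. -/
noncomputable def hV : Fin 5 → Pol 2 :=
  ![MvPolynomial.X 0, MvPolynomial.X 1, 1 - MvPolynomial.X 0, 1 - MvPolynomial.X 1,
    1 - MvPolynomial.X 0 * MvPolynomial.X 1]

theorem eval_hV (z : Fin 2 → ℂ) (k : Fin 5) : MvPolynomial.eval z (hV k) =
    ![z 0, z 1, 1 - z 0, 1 - z 1, 1 - z 0 * z 1] k := by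
  fin_cases k <;> simp [hV]

theorem V_eq_hV : H266.V = {z : Fin 2 → ℂ | ∀ k, MvPolynomial.eval z (hV k) ≠ 0} := by
  ext z
  simp only [H266.V, Set.mem_setOf_eq, eval_hV, ne_eq]
  constructor
  · rintro ⟨h1, h2, h3, h4, h5⟩ k
    fin_cases k
    · exact h1
    · exact h2
    · exact fun h => h3 (sub_eq_zero.1 h).symm
    · exact fun h => h4 (sub_eq_zero.1 h).symm
    · exact fun h => h5 (sub_eq_zero.1 h).symm
  · intro h
    refine ⟨h 0, h 1, fun h' => h 2 ?_, fun h' => h 3 ?_, fun h' => h 4 ?_⟩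
    · show 1 - z 0 = 0
      rw [h', sub_self]
    · show 1 - z 1 = 0
      rw [h', sub_self]
    · show 1 - z 0 * z 1 = 0
      rw [h', sub_self]

/-- **[EXHU]** The exhaustion function of `M_{0,5}`. -/
theorem exhV : ∃ (p : (Fin 2 → ℂ) → ℝ) (C : ℝ) (k0 : ℕ), Exh H266.V p C k0 ∧
    (∀ z, 0 ≤ p z) ∧ (∀ z, ∑ i, ‖z i‖ ^ 2 ≤ p z) ∧ (∀ z, ‖z‖ ≤ 1 + p z) ∧
    (∀ z, ‖z 0‖⁻¹ ≤ 1 + p z) ∧ (∀ z, ‖z 1‖⁻¹ ≤ 1 + p z) ∧ (∀ z, ‖1 - z 0‖⁻¹ ≤ 1 + p z) ∧
    (∀ z, ‖1 - z 1‖⁻¹ ≤ 1 + p z) ∧ (∀ z, ‖1 - z 0 * z 1‖⁻¹ ≤ 1 + p z) := by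
  obtain ⟨C, k0, h⟩ := exh_fam hV
  rw [← V_eq_hV] at h
  have h1 : ∀ z k, ‖(![z 0, z 1, 1 - z 0, 1 - z 1, 1 - z 0 * z 1] : Fin 5 → ℂ) k‖⁻¹ ≤
      1 + exF hV z := by
    intro z k
    rw [← norm_inv, ← eval_hV z k]
    exact inv_le_exF z k
  exact ⟨exF hV, C, k0, h, exF_nonneg, exF_ge, norm_le_exF, fun z => h1 z 0, fun z => h1 z 1,
    fun z => h1 z 2, fun z => h1 z 3, fun z => h1 z 4⟩

/-! ### The symmetric weight -/

section general

variable {ι : Type*} [Fintype ι] {V : Set (Fin n → ℂ)} {γ : ι → (Fin n → ℂ) → ℂ}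

/-- `∑ log (1 + |γ_i|² + |1 - γ_i|²)`. -/
noncomputable def logS (γ : ι → (Fin n → ℂ) → ℂ) (z : Fin n → ℂ) : ℝ :=
  ∑ i, Real.log (1 + ‖γ i z‖ ^ 2 + ‖1 - γ i z‖ ^ 2)

theorem logS_aux (c : ℂ) : 1 + ‖c‖ ^ 2 + ‖1 - c‖ ^ 2 = 2 * (‖c - 1 / 2‖ ^ 2 + 3 / 4) := by
  rw [← Complex.normSq_eq_norm_sq, ← Complex.normSq_eq_norm_sq, ← Complex.normSq_eq_norm_sq,
    Complex.normSq_apply, Complex.normSq_apply, Complex.normSq_apply]
  simp
  ring

theorem logS_eq (c : ℂ) : Real.log (1 + ‖c‖ ^ 2 + ‖1 - c‖ ^ 2) =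
    Real.log 2 + Real.log (‖c - 1 / 2‖ ^ 2 + 3 / 4) := by
  rw [logS_aux, Real.log_mul two_ne_zero (by positivity)]

theorem logS_contDiffOn (hV : IsOpen V) (hγ : ∀ i, DifferentiableOn ℂ (γ i) V) (m : ℕ) :
    ContDiffOn ℝ m (logS γ) V := by
  refine ContDiffOn.sum fun i _ => ?_
  refine ContDiffOn.log ((contDiffOn_const.add
    ((Sheets.contDiffOn_real_of_holo hV (hγ i) m).norm_sq ℝ)).add
    ((Sheets.contDiffOn_real_of_holo hV ((differentiableOn_const _).sub (hγ i)) m).norm_sq ℝ))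
    fun z _ => ?_
  have h1 := sq_nonneg ‖γ i z‖
  have h2 := sq_nonneg ‖1 - γ i z‖
  exact (by linarith : (0 : ℝ) < _).ne'

theorem leviF_logS1 (hV : IsOpen V) {g : (Fin n → ℂ) → ℂ} (hg : DifferentiableOn ℂ g V)
    {z : Fin n → ℂ} (hz : z ∈ V) (β : Fin n → ℂ) :
    leviF (fun z => Real.log (1 + ‖g z‖ ^ 2 + ‖1 - g z‖ ^ 2)) β z =
      (3 / 4) / (‖g z - 1 / 2‖ ^ 2 + 3 / 4) ^ 2 * ‖∑ j, dz j g z * β j‖ ^ 2 := by
  have hg' : DifferentiableOn ℂ (fun z => g z - 1 / 2) V := hg.sub (differentiableOn_const _)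
  have hc : ContDiffAt ℝ 2 (fun z => Real.log (‖g z - 1 / 2‖ ^ 2 + 3 / 4)) z := by
    have h1 : ContDiffOn ℝ (2 : ℕ) (fun z => Real.log (‖g z - 1 / 2‖ ^ 2 + 3 / 4)) V := by
      refine ContDiffOn.log (((Sheets.contDiffOn_real_of_holo hV hg' 2).norm_sq ℝ).add
        contDiffOn_const) fun z _ => ?_
      positivity
    exact h1.contDiffAt (hV.mem_nhds hz)
  have h1 : (fun z => Real.log (1 + ‖g z‖ ^ 2 + ‖1 - g z‖ ^ 2)) =
      fun z => Real.log 2 + Real.log (‖g z - 1 / 2‖ ^ 2 + 3 / 4) := by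
    funext y
    exact logS_eq (g y)
  rw [h1, leviF_add contDiffAt_const hc, leviF_const, zero_add,
    leviF_log_normSq hV hg' hz (by norm_num) β]
  congr 3
  refine Finset.sum_congr rfl fun j _ => ?_
  congr 1
  have hd : DifferentiableAt ℝ g z := ExhAux.diffAtR hV hg hz
  have h2 : dz j (fun z => g z + (-(1 / 2) : ℂ)) z = dz j g z := by
    rw [dz_add hd (differentiableAt_const _), dz_const, add_zero]
  rw [← h2]
  congr 1

theorem leviF_logS (hV : IsOpen V) (hγ : ∀ i, DifferentiableOn ℂ (γ i) V) {z : Fin n → ℂ}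
    (hz : z ∈ V) (β : Fin n → ℂ) : leviF (logS γ) β z =
      ∑ i, (3 / 4) / (‖γ i z - 1 / 2‖ ^ 2 + 3 / 4) ^ 2 * ‖∑ j, dz j (γ i) z * β j‖ ^ 2 := by
  unfold logS
  rw [leviF_sum Finset.univ fun i _ => ?_]
  · exact Finset.sum_congr rfl fun i _ => leviF_logS1 hV (hγ i) hz β
  · have h1 : ContDiffOn ℝ (2 : ℕ) (fun z => Real.log (1 + ‖γ i z‖ ^ 2 + ‖1 - γ i z‖ ^ 2)) V := by
      refine ContDiffOn.log ((contDiffOn_const.add
        ((Sheets.contDiffOn_real_of_holo hV (hγ i) 2).norm_sq ℝ)).add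
        ((Sheets.contDiffOn_real_of_holo hV ((differentiableOn_const _).sub (hγ i)) 2).norm_sq ℝ))
        fun z _ => ?_
      have h1 := sq_nonneg ‖γ i z‖
      have h2 := sq_nonneg ‖1 - γ i z‖
      exact (by linarith : (0 : ℝ) < _).ne'
    exact h1.contDiffAt (hV.mem_nhds hz)

theorem leviF_logS_nonneg (hV : IsOpen V) (hγ : ∀ i, DifferentiableOn ℂ (γ i) V)
    {z : Fin n → ℂ} (hz : z ∈ V) (β : Fin n → ℂ) : 0 ≤ leviF (logS γ) β z := by
  rw [leviF_logS hV hγ hz]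
  positivity

/-- If the coordinates are among the `γ_i`, the Levi form is strictly positive. -/
theorem leviF_logS_ge (hV : IsOpen V) (hγ : ∀ i, DifferentiableOn ℂ (γ i) V)
    {e : Fin n → ι} (he : Function.Injective e) (hc : ∀ j, ∀ z ∈ V, γ (e j) z = z j)
    {R : ℝ} {z : Fin n → ℂ} (hz : z ∈ V) (hR : ‖z‖ ≤ R) (β : Fin n → ℂ) :
    (3 / 4) / ((R + 1 / 2) ^ 2 + 3 / 4) ^ 2 * ∑ j, ‖β j‖ ^ 2 ≤ leviF (logS γ) β z := by
  classical
  rw [leviF_logS hV hγ hz, Finset.mul_sum]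
  have h1 : ∀ j, (3 / 4) / ((R + 1 / 2) ^ 2 + 3 / 4) ^ 2 * ‖β j‖ ^ 2 ≤
      (3 / 4) / (‖γ (e j) z - 1 / 2‖ ^ 2 + 3 / 4) ^ 2 * ‖∑ k, dz k (γ (e j)) z * β k‖ ^ 2 := by
    intro j
    have h2 : ∀ k, dz k (γ (e j)) z = if j = k then 1 else 0 := by
      intro k
      have h3 : γ (e j) =ᶠ[𝓝 z] fun z => z j := by
        filter_upwards [hV.mem_nhds hz] with y hy
        exact hc j y hy
      rw [dz_congr h3, ExhAux.dz_coord]
    have h4 : ∑ k, dz k (γ (e j)) z * β k = β j := by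
      simp [h2]
    rw [h4, hc j z hz]
    have h5 : ‖z j - 1 / 2‖ ≤ R + 1 / 2 := by
      refine (norm_sub_le _ _).trans (add_le_add ((norm_le_pi_norm z j).trans hR) ?_)
      norm_num
    have h6 : (‖z j - 1 / 2‖ ^ 2 + 3 / 4) ^ 2 ≤ ((R + 1 / 2) ^ 2 + 3 / 4) ^ 2 := by
      have := norm_nonneg (z j - 1 / 2)
      gcongr
    have h7 : (3 / 4) / ((R + 1 / 2) ^ 2 + 3 / 4) ^ 2 ≤
        (3 / 4 : ℝ) / (‖z j - 1 / 2‖ ^ 2 + 3 / 4) ^ 2 :=
      div_le_div_of_nonneg_left (by norm_num) (by positivity) h6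
    exact mul_le_mul_of_nonneg_right h7 (sq_nonneg _)
  calc ∑ j, (3 / 4) / ((R + 1 / 2) ^ 2 + 3 / 4) ^ 2 * ‖β j‖ ^ 2
      ≤ ∑ j, (3 / 4) / (‖γ (e j) z - 1 / 2‖ ^ 2 + 3 / 4) ^ 2 *
          ‖∑ k, dz k (γ (e j)) z * β k‖ ^ 2 :=
        Finset.sum_le_sum fun j _ => h1 j
    _ = ∑ i ∈ Finset.univ.image e,
          (3 / 4) / (‖γ i z - 1 / 2‖ ^ 2 + 3 / 4) ^ 2 * ‖∑ k, dz k (γ i) z * β k‖ ^ 2 := by
        rw [Finset.sum_image fun a _ b _ h => he h]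
    _ ≤ _ := Finset.sum_le_sum_of_subset_of_nonneg (Finset.subset_univ _)
        fun i _ _ => by positivity

end general

theorem hphi_eq : H266.phi = logS H266.cr := rfl

theorem differentiableOn_cr (i : Fin 5) : DifferentiableOn ℂ (H266.cr i) Om := by
  have h0 : Differentiable ℂ fun z : Fin 2 → ℂ => z 0 := ExhAux.diff_coord 0
  have h1 : Differentiable ℂ fun z : Fin 2 → ℂ => z 1 := ExhAux.diff_coord 1
  have hden : ∀ z ∈ Om, 1 - z 0 * z 1 ≠ 0 := fun z hz h => hz (sub_eq_zero.1 h).symm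
  have hi : ∀ z ∈ Om, DifferentiableAt ℂ (fun z : Fin 2 → ℂ => (1 - z 0 * z 1)⁻¹) z :=
    fun z hz => (((differentiable_const 1).sub (h0.mul h1)) z).inv (hden z hz)
  fin_cases i
  · exact h0.differentiableOn
  · exact h1.differentiableOn
  · exact (h0.mul h1).differentiableOn
  · have h2 : DifferentiableOn ℂ (fun z : Fin 2 → ℂ => (1 - z 0) * (1 - z 0 * z 1)⁻¹) Om :=
      fun z hz => ((((differentiable_const 1).sub h0) z).mul (hi z hz)).differentiableWithinAt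
    exact h2
  · have h2 : DifferentiableOn ℂ (fun z : Fin 2 → ℂ => (1 - z 1) * (1 - z 0 * z 1)⁻¹) Om :=
      fun z hz => ((((differentiable_const 1).sub h1) z).mul (hi z hz)).differentiableWithinAt
    exact h2

/-- **[PHI] (a)** -/
theorem hphi_contDiffOn (m : ℕ) : ContDiffOn ℝ m H266.phi {w | w 0 * w 1 ≠ 1} :=
  logS_contDiffOn isOpen_Om differentiableOn_cr m

/-- **[PHI] (b)** -/
theorem leviF_hphi_nonneg {w : Fin 2 → ℂ} (hw : w 0 * w 1 ≠ 1) (β : Fin 2 → ℂ) :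
    0 ≤ leviF H266.phi β w := leviF_logS_nonneg isOpen_Om differentiableOn_cr hw β

/-- Strict positivity on bounded sets. -/
theorem leviF_hphi_ge {R : ℝ} {z : Fin 2 → ℂ} (hz : z 0 * z 1 ≠ 1) (hR : ‖z‖ ≤ R)
    (β : Fin 2 → ℂ) :
    (3 / 4) / ((R + 1 / 2) ^ 2 + 3 / 4) ^ 2 * ∑ j, ‖β j‖ ^ 2 ≤ leviF H266.phi β z := by
  refine leviF_logS_ge (e := ![0, 1]) isOpen_Om differentiableOn_cr ?_ ?_ hz hR β
  · intro a b h
    fin_cases a <;> fin_cases b <;> simp_all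
  · intro j z _
    fin_cases j <;> rfl

/-- **[PHI] (c)** Around every point of `{w 0 * w 1 ≠ 1}` there is a closed ball with all the
bounds needed for the weights. -/
theorem hphi_local {w₀ : Fin 2 → ℂ} (hw : w₀ 0 * w₀ 1 ≠ 1) : ∃ ε : ℝ, 0 < ε ∧
    Metric.closedBall w₀ ε ⊆ {w | w 0 * w 1 ≠ 1} ∧ ∃ c : ℝ, 0 < c ∧
      (∀ z ∈ Metric.closedBall w₀ ε, ∀ β : Fin 2 → ℂ,
        c * ∑ j, ‖β j‖ ^ 2 ≤ leviF H266.phi β z) ∧
      ∃ B : ℝ, ∀ z ∈ Metric.closedBall w₀ ε, H266.phi z ≤ B := by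
  obtain ⟨δ, hδ, hb⟩ := Metric.nhds_basis_closedBall.mem_iff.1 (isOpen_Om.mem_nhds hw)
  refine ⟨δ, hδ, hb, (3 / 4) / ((‖w₀‖ + δ + 1 / 2) ^ 2 + 3 / 4) ^ 2, by positivity,
    fun z hz β => ?_, ?_⟩
  · refine leviF_hphi_ge (hb hz) ?_ β
    have h1 : ‖z - w₀‖ ≤ δ := mem_closedBall_iff_norm.1 hz
    calc ‖z‖ = ‖w₀ + (z - w₀)‖ := by rw [add_sub_cancel]
      _ ≤ ‖w₀‖ + δ := (norm_add_le _ _).trans (by linarith)
  · have h1 : ContinuousOn H266.phi (Metric.closedBall w₀ δ) :=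
      ((hphi_contDiffOn 0).continuousOn).mono hb
    obtain ⟨B, hB⟩ := (isCompact_closedBall w₀ δ).exists_bound_of_continuousOn h1
    exact ⟨B, fun z hz => (le_abs_self _).trans (hB z hz)⟩

end Vale.Agent.P300.H113
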