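import Vale.Agent.P300.H266.SecSpec

/-!
P300, block JETS, pieces [CLP] (clopen neighbourhoods for `(x 0 ^ P, x 1 ^ Q)`) and [F0] (the local
datum for `SecL`).
-/

set_option autoImplicit false
set_option linter.all false

open Set MeasureTheory Filter Topology Vale.Agent.P300.L2
open scoped ENNReal

namespace Vale.Agent.P300.H113

open Vale.Agent.P300.H266 (pw vz IsFinCov IsSec HoloE HoloBE IsChart jac)

/-! ### One variable -/

theorem finite_pow_eq (P : ℕ) (hP : 0 < P) (c : ℂ) : {z : ℂ | z ^ P = c}.Finite := by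
  have h1 : (Polynomial.X ^ P - Polynomial.C c : Polynomial ℂ) ≠ 0 :=
    Polynomial.X_pow_sub_C_ne_zero hP c
  refine (Polynomial.finite_setOf_isRoot h1).subset fun z hz => ?_
  simp only [mem_setOf_eq, Polynomial.IsRoot.def, Polynomial.eval_sub, Polynomial.eval_pow,
    Polynomial.eval_X, Polynomial.eval_C]
  rw [show z ^ P = c from hz, sub_self]

/-- A small disc around `a` in which `z ^ P = a ^ P` only at `a`, and `|z ^ P - a ^ P|` is bounded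
below near the boundary of a half size disc. -/
theorem exists_disc (P : ℕ) (hP : 0 < P) (a : ℂ) {ε : ℝ} (hε : 0 < ε) :
    ∃ δ m : ℝ, 0 < δ ∧ 2 * δ ≤ ε ∧ 0 < m ∧
      (∀ z ∈ Metric.closedBall a (2 * δ), z ^ P = a ^ P → z = a) ∧
      ∀ z ∈ Metric.closedBall a (2 * δ), δ ≤ ‖z - a‖ → m ≤ ‖z ^ P - a ^ P‖ := by
  have hfin : ({z : ℂ | z ^ P = a ^ P} \ {a}).Finite := (finite_pow_eq P hP _).subset diff_subset
  have hnb : ({z : ℂ | z ^ P = a ^ P} \ {a})ᶜ ∈ 𝓝 a :=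
    hfin.isClosed.isOpen_compl.mem_nhds fun h => h.2 rfl
  obtain ⟨η, hη, hb⟩ := Metric.nhds_basis_closedBall.mem_iff.1 hnb
  set δ := min (η / 2) (ε / 2) with hδ
  have hδ0 : 0 < δ := lt_min (by positivity) (by positivity)
  have hδη : 2 * δ ≤ η := by linarith [min_le_left (η / 2) (ε / 2)]
  have hδε : 2 * δ ≤ ε := by linarith [min_le_right (η / 2) (ε / 2)]
  have huniq : ∀ z ∈ Metric.closedBall a (2 * δ), z ^ P = a ^ P → z = a := by
    intro z hz hzP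
    by_contra hne
    exact hb (Metric.closedBall_subset_closedBall hδη hz) ⟨hzP, hne⟩
  set A : Set ℂ := Metric.closedBall a (2 * δ) ∩ {z | δ ≤ ‖z - a‖} with hA
  have hAc : IsCompact A := (isCompact_closedBall a (2 * δ)).inter_right
    (isClosed_le continuous_const (by fun_prop))
  have hAne : A.Nonempty := by
    refine ⟨a + (2 * δ : ℝ), ?_, ?_⟩
    · rw [mem_closedBall_iff_norm, add_sub_cancel_left, Complex.norm_real, Real.norm_eq_abs,
        abs_of_pos (by positivity)]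
    · show δ ≤ ‖_‖
      rw [add_sub_cancel_left, Complex.norm_real, Real.norm_eq_abs, abs_of_pos (by positivity)]
      linarith
  obtain ⟨z₀, hz₀, hmin⟩ := hAc.exists_isMinOn hAne
    (f := fun z => ‖z ^ P - a ^ P‖) (by fun_prop)
  refine ⟨δ, ‖z₀ ^ P - a ^ P‖, hδ0, hδε, ?_, huniq, fun z hz hzd => hmin ⟨hz, hzd⟩⟩
  rw [norm_pos_iff, sub_ne_zero]
  intro h0
  have h1 := huniq z₀ hz₀.1 h0
  have h2 : δ ≤ ‖z₀ - a‖ := hz₀.2
  rw [h1, sub_self, norm_zero] at h2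
  linarith

/-! ### Two variables -/

theorem continuous_pw (P Q : ℕ) : Continuous (pw P Q) := by
  unfold pw
  refine continuous_pi fun j => ?_
  fin_cases j
  · exact (continuous_apply 0).pow P
  · exact (continuous_apply 1).pow Q

theorem vz_pw (P Q : ℕ) (w x : Fin 2 → ℂ) :
    vz w (pw P Q x) = ‖x 0 ^ P - w 0‖ ^ 2 + ‖x 1 ^ Q - w 1‖ ^ 2 := by
  unfold vz pw
  rw [Fin.sum_univ_two]
  rfl

theorem continuous_vz {n : ℕ} (w : Fin n → ℂ) : Continuous (vz w) := by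
  unfold vz
  fun_prop

theorem vz_self {n : ℕ} (w : Fin n → ℂ) : vz w w = 0 := by
  simp [vz]

theorem vz_nonneg {n : ℕ} (w z : Fin n → ℂ) : 0 ≤ vz w z :=
  Finset.sum_nonneg fun _ _ => sq_nonneg _

theorem norm_le_of_vz {n : ℕ} {w z : Fin n → ℂ} {s : ℝ} (hs : 0 ≤ s) (h : vz w z ≤ s ^ 2) :
    ‖z - w‖ ≤ s := by
  refine (pi_norm_le_iff_of_nonneg hs).2 fun j => ?_
  have h1 : ‖z j - w j‖ ^ 2 ≤ s ^ 2 :=
    (Finset.single_le_sum (f := fun j => ‖z j - w j‖ ^ 2) (fun _ _ => sq_nonneg _)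
      (Finset.mem_univ j)).trans h
  exact (pow_le_pow_iff_left₀ (norm_nonneg _) hs two_ne_zero).1 h1

/-- **[CLP]** clopen neighbourhoods for `pw P Q`. -/
theorem exists_piece {P Q : ℕ} (hP : 0 < P) (hQ : 0 < Q) {x₀ : Fin 2 → ℂ} {Ω : Set (Fin 2 → ℂ)}
    (hΩ : IsOpen Ω) (hx : x₀ ∈ Ω) {R : Set (Fin 2 → ℂ)} (hR : IsOpen R) (hxR : pw P Q x₀ ∈ R) :
    ∃ (r : ℝ) (N : Set (Fin 2 → ℂ)), 0 < r ∧ IsOpen N ∧ x₀ ∈ N ∧ IsCompact (closure N) ∧
      closure N ⊆ Ω ∧ {z | vz (pw P Q x₀) z < 5 * r} ⊆ R ∧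
      (∀ x ∈ closure N, vz (pw P Q x₀) (pw P Q x) < 5 * r → x ∈ N) ∧
      (∀ x ∈ N, vz (pw P Q x₀) (pw P Q x) < 5 * r) ∧
      (∀ x ∈ N, pw P Q x = pw P Q x₀ → x = x₀) := by
  obtain ⟨ε, hε, hb⟩ := Metric.nhds_basis_closedBall.mem_iff.1 (hΩ.mem_nhds hx)
  obtain ⟨s, hs, hsR⟩ := Metric.nhds_basis_closedBall.mem_iff.1 (hR.mem_nhds hxR)
  obtain ⟨δ0, m0, hδ0, hδε0, hm0, hu0, hl0⟩ := exists_disc P hP (x₀ 0) hε
  obtain ⟨δ1, m1, hδ1, hδε1, hm1, hu1, hl1⟩ := exists_disc Q hQ (x₀ 1) hε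
  set w := pw P Q x₀ with hw
  have hw0 : w 0 = x₀ 0 ^ P := rfl
  have hw1 : w 1 = x₀ 1 ^ Q := rfl
  -- the radius
  set r : ℝ := min (s ^ 2) (min (m0 ^ 2) (m1 ^ 2)) / 5 with hr
  have hr0 : 0 < r := by
    have : 0 < min (s ^ 2) (min (m0 ^ 2) (m1 ^ 2)) :=
      lt_min (by positivity) (lt_min (by positivity) (by positivity))
    positivity
  have h5r : 5 * r = min (s ^ 2) (min (m0 ^ 2) (m1 ^ 2)) := by rw [hr]; ring
  have hrs : 5 * r ≤ s ^ 2 := h5r ▸ min_le_left _ _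
  have hrm0 : 5 * r ≤ m0 ^ 2 := h5r ▸ (min_le_right _ _).trans (min_le_left _ _)
  have hrm1 : 5 * r ≤ m1 ^ 2 := h5r ▸ (min_le_right _ _).trans (min_le_right _ _)
  set N : Set (Fin 2 → ℂ) := {x | ‖x 0 - x₀ 0‖ < δ0 ∧ ‖x 1 - x₀ 1‖ < δ1 ∧
    vz w (pw P Q x) < 5 * r} with hN
  have hNo : IsOpen N := by
    have e : N = {x : Fin 2 → ℂ | ‖x 0 - x₀ 0‖ < δ0} ∩ ({x | ‖x 1 - x₀ 1‖ < δ1} ∩
        {x | vz w (pw P Q x) < 5 * r}) := rfl
    rw [e]
    refine (isOpen_lt (by fun_prop) continuous_const).inter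
      ((isOpen_lt (by fun_prop) continuous_const).inter
        (isOpen_lt ((continuous_vz w).comp (continuous_pw P Q)) continuous_const))
  have hcl : closure N ⊆ {x | ‖x 0 - x₀ 0‖ ≤ δ0 ∧ ‖x 1 - x₀ 1‖ ≤ δ1} := by
    refine closure_minimal (fun x hx => ⟨hx.1.le, hx.2.1.le⟩) ?_
    have e : {x : Fin 2 → ℂ | ‖x 0 - x₀ 0‖ ≤ δ0 ∧ ‖x 1 - x₀ 1‖ ≤ δ1} =
        {x | ‖x 0 - x₀ 0‖ ≤ δ0} ∩ {x | ‖x 1 - x₀ 1‖ ≤ δ1} := rfl
    rw [e]
    exact (isClosed_le (by fun_prop) continuous_const).inter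
      (isClosed_le (by fun_prop) continuous_const)
  have hclb : closure N ⊆ Metric.closedBall x₀ ε := by
    intro x hx
    rw [mem_closedBall_iff_norm]
    refine (pi_norm_le_iff_of_nonneg hε.le).2 fun j => ?_
    have h1 := hcl hx
    fin_cases j
    · exact h1.1.trans (by linarith)
    · exact h1.2.trans (by linarith)
  refine ⟨r, N, hr0, hNo, ?_, ?_, hclb.trans hb, ?_, ?_, fun x hx => hx.2.2, ?_⟩
  · refine ⟨by rw [sub_self, norm_zero]; exact hδ0, by rw [sub_self, norm_zero]; exact hδ1, ?_⟩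
    rw [← hw, vz_self]
    positivity
  · exact (isCompact_closedBall x₀ ε).of_isClosed_subset isClosed_closure hclb
  · intro z hz
    refine hsR ?_
    rw [mem_closedBall_iff_norm]
    exact norm_le_of_vz hs.le ((le_of_lt hz).trans hrs)
  · intro x hx hv
    have h1 := hcl hx
    rw [vz_pw] at hv
    have hv0 : ‖x 0 ^ P - w 0‖ ^ 2 < m0 ^ 2 := by nlinarith [sq_nonneg ‖x 1 ^ Q - w 1‖]
    have hv1 : ‖x 1 ^ Q - w 1‖ ^ 2 < m1 ^ 2 := by nlinarith [sq_nonneg ‖x 0 ^ P - w 0‖]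
    have hv0' : ‖x 0 ^ P - w 0‖ < m0 := (pow_lt_pow_iff_left₀ (norm_nonneg _) hm0.le two_ne_zero).1 hv0
    have hv1' : ‖x 1 ^ Q - w 1‖ < m1 := (pow_lt_pow_iff_left₀ (norm_nonneg _) hm1.le two_ne_zero).1 hv1
    refine ⟨?_, ?_, ?_⟩
    · by_contra hc
      refine absurd (hl0 (x 0) ?_ (not_lt.1 hc)) (not_le.2 hv0')
      rw [mem_closedBall_iff_norm]
      exact h1.1.trans (by linarith)
    · by_contra hc
      refine absurd (hl1 (x 1) ?_ (not_lt.1 hc)) (not_le.2 hv1')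
      rw [mem_closedBall_iff_norm]
      exact h1.2.trans (by linarith)
    · rw [vz_pw]
      exact hv
  · intro x hx hxw
    have h0 : x 0 ^ P = x₀ 0 ^ P := congrFun hxw 0
    have h1 : x 1 ^ Q = x₀ 1 ^ Q := congrFun hxw 1
    funext j
    fin_cases j
    · refine hu0 (x 0) ?_ h0
      rw [mem_closedBall_iff_norm]
      exact hx.1.le.trans (by linarith)
    · refine hu1 (x 1) ?_ h1
      rw [mem_closedBall_iff_norm]
      exact hx.2.1.le.trans (by linarith)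

end Vale.Agent.P300.H113
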